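import Mathlib

/-!
P082: bounded Hochschild cochains of a von Neumann algebra with values in itself, and the
vocabulary of the proof of their vanishing for commuting generators of type II.
-/

open scoped InnerProductSpace

namespace Vale.Agent.P082

universe u

variable {H : Type u} [NormedAddCommGroup H] [InnerProductSpace ℂ H] [CompleteSpace H]

/-- The algebra of a von Neumann algebra, as a type. -/
abbrev Alg (M : VonNeumannAlgebra H) : Type u := ↥M.toStarSubalgebra

variable (M : VonNeumannAlgebra H)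

/-- A bounded `n`-linear map of `M` into `M`. -/
abbrev Cochain (n : ℕ) : Type u := ContinuousMultilinearMap ℂ (fun _ : Fin n => Alg M) (Alg M)

variable {M}

/-- The Hochschild differential: `(df)(x₀, …, xₙ)` is
`x₀ f(x₁, …) + ∑ (-1)^(j+1) f(…, xⱼ xⱼ₊₁, …) + (-1)^(n+1) f(x₀, …, xₙ₋₁) xₙ`. -/
noncomputable def hoch {n : ℕ} (f : Cochain M n) (x : Fin (n + 1) → Alg M) : Alg M :=
  x 0 * f (fun i => x i.succ) +
    ∑ j : Fin n, (-1 : ℂ) ^ ((j : ℕ) + 1) • f (Fin.contractNth j.castSucc (· * ·) x) +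
    (-1 : ℂ) ^ (n + 1) • (f (fun i => x i.castSucc) * x (Fin.last n))

/-- Every bounded `(n+1)`-cocycle is the coboundary of a bounded `n`-cochain. -/
def Vanishes (M : VonNeumannAlgebra H) (n : ℕ) : Prop :=
  ∀ f : Cochain M (n + 1), (∀ x, hoch f x = 0) → ∃ g : Cochain M n, ∀ x, f x = hoch g x

/-- `Ω` is a separating vector for `M` whose vector functional is a trace on `M`. -/
structure TracialVector (M : VonNeumannAlgebra H) (Ω : H) : Prop where
  trace : ∀ x ∈ M, ∀ y ∈ M, ⟪Ω, x (y Ω)⟫_ℂ = ⟪Ω, y (x Ω)⟫_ℂ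
  separating : ∀ x ∈ M, x Ω = 0 → x = 0

/-- The vector functional of `Ω`. -/
noncomputable def tr (Ω : H) (x : Alg M) : ℂ := ⟪Ω, (x : H →L[ℂ] H) Ω⟫_ℂ

/-- `A` has no nonzero abelian projection. -/
def NoAbelianProjection (A : VonNeumannAlgebra H) : Prop :=
  ∀ p : H →L[ℂ] H, IsStarProjection p → p ∈ A →
    (∀ x ∈ A, ∀ y ∈ A, p * x * p * (p * y * p) = p * y * p * (p * x * p)) → p = 0

/-- Matrix units of size `P` in `A`. -/
structure Units (A : VonNeumannAlgebra H) (P : ℕ) where
  e : Fin P → Fin P → (H →L[ℂ] H)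
  mem : ∀ i j, e i j ∈ A
  star_e : ∀ i j, star (e i j) = e j i
  mul_e : ∀ i j k l, e i j * e k l = if j = k then e i l else 0
  sum_e : ∑ i, e i i = 1

end Vale.Agent.P082
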