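import Vale.Agent.P082.Defs
import Vale.Agent.P085.Bridge.Block
import Vale.Agent.P104.Continuous.Iterate

/-!
P082: matrix units whose twirl almost kills the conjugates of their diagonal projections by
finitely many given unitaries, in operator norm.
-/

open scoped InnerProductSpace

namespace Vale.Agent.P082.Flat

open Vale.Agent.P104 Vale.Agent.P104.Continuous VP085.Bridge

universe u

variable {H : Type u} [NormedAddCommGroup H] [InnerProductSpace ℂ H] [CompleteSpace H]

/-- The vectors `ξ` give a normal positive trace of `M`. -/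
def IsTraceSeq (M : VonNeumannAlgebra H) (ξ : ℕ → H) : Prop :=
  Summable (fun n => ‖ξ n‖ ^ 2) ∧
    ∀ x ∈ M, ∀ y ∈ M, ∑' n, ⟪ξ n, x (y (ξ n))⟫_ℂ = ∑' n, ⟪ξ n, y (x (ξ n))⟫_ℂ

/-- The functional of a sequence of vectors. -/
noncomputable def fn (ξ : ℕ → H) (x : H →L[ℂ] H) : ℂ := ∑' n, ⟪ξ n, x (ξ n)⟫_ℂ

variable {M : VonNeumannAlgebra H} {ξ : ℕ → H}

theorem summable_inner (hξ : IsTraceSeq M ξ) (x : H →L[ℂ] H) :
    Summable fun n => ⟪ξ n, x (ξ n)⟫_ℂ :=
  Summable.of_norm_bounded (hξ.1.mul_left ‖x‖) fun n =>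
    (norm_inner_le_norm _ _).trans <| by
      calc ‖ξ n‖ * ‖x (ξ n)‖ ≤ ‖ξ n‖ * (‖x‖ * ‖ξ n‖) :=
            mul_le_mul_of_nonneg_left (x.le_opNorm _) (norm_nonneg _)
        _ = _ := by ring

theorem fn_sum (hξ : IsTraceSeq M ξ) {ι : Type} (s : Finset ι) (f : ι → (H →L[ℂ] H)) :
    fn ξ (∑ i ∈ s, f i) = ∑ i ∈ s, fn ξ (f i) := by
  simp only [fn, sum_apply, inner_sum]
  exact Summable.tsum_finsetSum fun i _ => summable_inner hξ _

omit [CompleteSpace H] in
theorem fn_smul (c : ℂ) (x : H →L[ℂ] H) : fn ξ (c • x) = c * fn ξ x := by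
  simp only [fn, smul_apply, inner_smul_right]
  exact tsum_mul_left

theorem fn_comm (hξ : IsTraceSeq M ξ) {x y : H →L[ℂ] H} (hx : x ∈ M) (hy : y ∈ M) :
    fn ξ (x * y) = fn ξ (y * x) := hξ.2 x hx y hy

variable {n : ℕ} {p' : H →L[ℂ] H} {R : Fin n → (H →L[ℂ] H)}

theorem fn_piece (hξ : IsTraceSeq M ξ) (hB : Block M 1 p' R) {G : H →L[ℂ] H} (hG : InCentre M G)
    (i : Fin n) : fn ξ (G * (star (R i) * R i)) = fn ξ (G * p') := by
  rw [← mul_assoc, fn_comm hξ (mul_mem hG.1 (star_mem (hB.mem i))) (hB.mem i), ← mul_assoc,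
    ← hG.2 _ (hB.mem i), mul_assoc, hB.orth, if_pos rfl]

theorem fn_pieces (hξ : IsTraceSeq M ξ) (hB : Block M 1 p' R) {G : H →L[ℂ] H} (hG : InCentre M G) :
    fn ξ G = (n : ℂ) * fn ξ (G * p') := by
  conv_lhs => rw [← mul_one G, ← hB.sum, Finset.mul_sum, fn_sum hξ]
  simp [fn_piece hξ hB hG]

theorem fn_down (hξ : IsTraceSeq M ξ) (hB : Block M 1 p' R) {G y : H →L[ℂ] H} (hG : InCentre M G)
    (hy : y ∈ M) : fn ξ (G * down R y) = (n : ℂ)⁻¹ * fn ξ (G * y) := by
  rw [down, mul_smul_comm, fn_smul, Finset.mul_sum, fn_sum hξ]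
  congr 1
  have e : ∀ i, fn ξ (G * (R i * y * star (R i))) = fn ξ (G * y * (star (R i) * R i)) := fun i => by
    have m := mul_mem (star_mem (hB.mem i)) (hB.mem i)
    rw [← mul_assoc, fn_comm hξ (mul_mem hG.1 (mul_mem (hB.mem i) hy)) (star_mem (hB.mem i))]
    calc fn ξ (star (R i) * (G * (R i * y))) = fn ξ (G * (star (R i) * R i) * y) := by
          rw [← mul_assoc, ← hG.2 _ (star_mem (hB.mem i))]; simp only [mul_assoc]
      _ = fn ξ (y * (G * (star (R i) * R i))) := fn_comm hξ (mul_mem hG.1 m) hy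
      _ = fn ξ (G * y * (star (R i) * R i)) := by rw [← mul_assoc, ← hG.2 y hy]
  simp only [e]
  rw [← fn_sum hξ, ← Finset.mul_sum, hB.sum, mul_one]

/-- A central element near the average of the conjugate of one piece is at most `λ`. -/
theorem central_le (hsep : ∀ x ∈ M, (∀ ξ : ℕ → H, IsTraceSeq M ξ → ∀ n, x (ξ n) = 0) → x = 0)
    {n0 : ℕ} {q0 : H →L[ℂ] H} {R0 : Fin n0 → (H →L[ℂ] H)} (hB0 : Block M 1 q0 R0) (r : Fin n0)
    (hB : Block M 1 p' R) {a : H →L[ℂ] H} (ha : a ∈ M) (hau : star a * a = 1) {c : H →L[ℂ] H}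
    (hc : InCentre M c) (hcs : IsSelfAdjoint c) {ε l : ℝ} (hl : (n0 : ℝ)⁻¹ + ε < l)
    (hnear : ‖down R (a * (star (R0 r) * R0 r) * star a) - c * p'‖ ≤ ε) :
    c ≤ algebraMap ℝ (H →L[ℂ] H) l := by
  set φ : ℝ → ℝ := fun t => max (t - l) 0 with hφ
  have cφ : Continuous φ := by fun_prop
  set g := cfc φ c with hg
  have hgs : IsSelfAdjoint g := cfc_predicate φ c
  have hgM : g ∈ M := cfc_mem_vn hc.1 φ
  have hgc : InCentre M g := ⟨hgM, fun x hx =>
    ((show Commute c x from hc.2 x hx).cfc_real φ).eq⟩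
  set P := star (R0 r) * R0 r
  set y := a * P * star a
  have hP : P ∈ M := mul_mem (star_mem (hB0.mem r)) (hB0.mem r)
  have hy : y ∈ M := mul_mem (mul_mem ha hP) (star_mem ha)
  set A := down R y
  have hs := hB.proj.isSelfAdjoint
  have hgp : g * p' = p' * g := hgc.2 p' hB.memP
  suffices g = 0 by
    have h1 : cfc (fun t : ℝ => t - l) c ≤ cfc φ c :=
      cfc_mono fun t _ => le_max_left _ _
    rw [← hg, this, cfc_sub (fun t : ℝ => t) (fun _ => l) c, cfc_id' ℝ c, cfc_const l c,
      sub_nonpos] at h1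
    exact h1
  have hmul : g * p' = 0 := by
    refine hsep _ (mul_mem hgM hB.memP) fun ξ hξ => ?_
    set G := g * g
    have hG : InCentre M G := ⟨mul_mem hgM hgM, fun x hx => by
      rw [mul_assoc, hgc.2 x hx, ← mul_assoc, hgc.2 x hx, mul_assoc]⟩
    have e2 : fn ξ (G * A) = (n0 : ℂ)⁻¹ * fn ξ (G * p') := by
      have hn : fn ξ (G * y) = fn ξ (G * P) := by
        rw [show G * y = a * (G * (P * star a)) by
          rw [← mul_assoc a, ← hG.2 a ha]; simp only [y, mul_assoc],
          fn_comm hξ ha (mul_mem hG.1 (mul_mem hP (star_mem ha)))]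
        simp only [mul_assoc, hau, mul_one]
      have h0 : (n0 : ℂ) ≠ 0 := Nat.cast_ne_zero.2 (Fin.pos r).ne'
      rw [fn_down hξ hB hG hy, hn, fn_piece hξ hB0 hG r]
      have hp := fn_pieces hξ hB0 hG
      have hp' := fn_pieces hξ hB hG
      rcases Nat.eq_zero_or_pos n with rfl | hn'
      · have : p' = 0 := by
          have h := hB.sum
          simp at h
          rw [← mul_one p', ← h, mul_zero]
        simp [this, fn]
      · have h1 : (n : ℂ) ≠ 0 := Nat.cast_ne_zero.2 hn'.ne'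
        rw [hp] at hp'
        field_simp
        linear_combination hp'
    have e3 : ∀ m, (l - ε) * ‖(g * p') (ξ m)‖ ^ 2 ≤ (⟪ξ m, (G * A) (ξ m)⟫_ℂ).re := fun m => by
      set η := (g * p') (ξ m)
      set ζ := g (ξ m)
      have hA : p' * A = A := hB.left_down y
      have hAs : IsSelfAdjoint A := down_sa R
        ((IsSelfAdjoint.star_mul_self (R0 r)).conjugate a)
      have hA' : A * p' = A := by simpa [hAs.star_eq, hs.star_eq] using congrArg star hA
      have h1 : (G * A) (ξ m) = g (A η) := by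
        have hgA : g * A = A * g := hgc.2 A (hB.down_mem hy)
        calc (G * A) (ξ m) = (g * (A * p' * g)) (ξ m) := by rw [hA', ← hgA]; rfl
          _ = g (A η) := by rw [mul_assoc, ← hgp]; rfl
      have h2 : ⟪ξ m, (G * A) (ξ m)⟫_ℂ = ⟪η, A η⟫_ℂ := by
        rw [h1, ← inner_proj hgs]
        have : A η = p' (A η) := (DFunLike.congr_fun hA η).symm
        rw [this, ← inner_proj hs]
        show ⟪(p' * g) (ξ m), _⟫_ℂ = ⟪(g * p') (ξ m), _⟫_ℂ
        rw [hgp, ← this]
      have h3 : (⟪η, (A - c * p') η⟫_ℂ).re ≥ -(ε * ‖η‖ ^ 2) := by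
        have h : ‖⟪η, (A - c * p') η⟫_ℂ‖ ≤ ε * ‖η‖ ^ 2 := by
          refine (norm_inner_le_norm _ _).trans ?_
          have := ((A - c * p').le_opNorm η).trans (mul_le_mul_of_nonneg_right hnear (norm_nonneg η))
          calc ‖η‖ * ‖(A - c * p') η‖ ≤ ‖η‖ * (ε * ‖η‖) :=
                mul_le_mul_of_nonneg_left this (norm_nonneg _)
            _ = _ := by ring
        linarith [neg_le_abs (⟪η, (A - c * p') η⟫_ℂ).re, Complex.abs_re_le_norm
          ⟪η, (A - c * p') η⟫_ℂ]
      have hpη : p' η = η := by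
        show (p' * (g * p')) (ξ m) = _
        rw [← mul_assoc, ← hgp, mul_assoc, hB.proj.isIdempotentElem.eq]
      have h4 : l * ‖η‖ ^ 2 ≤ (⟪η, c η⟫_ℂ).re := by
        have hpos : 0 ≤ g * (c - algebraMap ℝ (H →L[ℂ] H) l) * g := by
          have e : g * (c - algebraMap ℝ (H →L[ℂ] H) l) * g =
              cfc (fun t => φ t * (t - l) * φ t) c := by
            rw [cfc_mul (fun t => φ t * (t - l)) φ c, cfc_mul φ (fun t => t - l) c,
              cfc_sub (fun t : ℝ => t) (fun _ => l) c, cfc_id' ℝ c, cfc_const l c]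
          rw [e]
          exact cfc_nonneg fun t _ => by
            rcases le_total (t - l) 0 with h | h <;> simp [hφ, h, mul_nonneg]
        have := ((ContinuousLinearMap.nonneg_iff_isPositive _).1 hpos).inner_nonneg_right
          (p' (ξ m))
        rw [mul_assoc, apply_mul, ← inner_proj hgs, Complex.le_def] at this
        have h5 := this.1
        rw [Algebra.algebraMap_eq_smul_one] at h5
        change 0 ≤ (⟪η, c η - l • η⟫_ℂ).re at h5
        rw [inner_sub_right, RCLike.real_smul_eq_coe_smul (K := ℂ), inner_smul_right,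
          inner_self_eq_norm_sq_to_K] at h5
        simp [← Complex.ofReal_pow] at h5
        linarith
      rw [h2]
      rw [sub_apply, inner_sub_right, apply_mul, hpη, Complex.sub_re] at h3
      nlinarith
    have hsq : Summable fun m => ‖(g * p') (ξ m)‖ ^ 2 :=
      Summable.of_nonneg_of_le (fun m => sq_nonneg _)
        (fun m => (pow_le_pow_left₀ (norm_nonneg _) ((g * p').le_opNorm _) 2).trans_eq
          (mul_pow _ _ 2)) (hξ.1.mul_left _)
    have e4 : (fn ξ (G * p')).re = ∑' m, ‖(g * p') (ξ m)‖ ^ 2 := by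
      rw [fn, Complex.re_tsum (summable_inner hξ _)]
      refine tsum_congr fun m => ?_
      have : G * p' = star (g * p') * (g * p') := by
        rw [star_mul, hgs.star_eq, hs.star_eq, mul_assoc p', ← mul_assoc g g p', ← mul_assoc p',
          ← hG.2 p' hB.memP, mul_assoc, mul_assoc, mul_assoc, hB.proj.isIdempotentElem.eq]
      rw [this, apply_mul, ContinuousLinearMap.star_eq_adjoint,
        ContinuousLinearMap.adjoint_inner_right, inner_self_eq_norm_sq_to_K]
      simp [← Complex.ofReal_pow]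
    have e5 : (l - ε) * (∑' m, ‖(g * p') (ξ m)‖ ^ 2) ≤
        (n0 : ℝ)⁻¹ * ∑' m, ‖(g * p') (ξ m)‖ ^ 2 := by
      rw [← tsum_mul_left]
      refine ((hsq.mul_left _).tsum_le_tsum e3
        (Complex.hasSum_re (summable_inner hξ (G * A)).hasSum).summable).trans_eq ?_
      rw [← Complex.re_tsum (summable_inner hξ _)]
      change (fn ξ (G * A)).re = _
      rw [e2, show ((n0 : ℂ))⁻¹ = (((n0 : ℝ)⁻¹ : ℝ) : ℂ) by simp, Complex.re_ofReal_mul, e4]
    have hz : ∑' m, ‖(g * p') (ξ m)‖ ^ 2 = 0 := by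
      have h0 : 0 ≤ ∑' m, ‖(g * p') (ξ m)‖ ^ 2 := tsum_nonneg fun m => sq_nonneg _
      nlinarith
    intro m
    exact norm_eq_zero.1 (pow_eq_zero_iff two_ne_zero |>.1
      (congrFun ((hsq.hasSum_iff.2 hz |> (hasSum_zero_iff_of_nonneg fun m => sq_nonneg _).1)) m))
  have : ∀ i, g * (star (R i) * R i) = 0 := fun i => by
    rw [← mul_assoc, hgc.2 _ (star_mem (hB.mem i)), mul_assoc, ← hB.left i, ← mul_assoc g, hmul,
      zero_mul, mul_zero]
  rw [← mul_one g, ← hB.sum, Finset.mul_sum]
  simp [this]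

/-- A block from matrix units on a corner. -/
theorem block_of_good {z p : H →L[ℂ] H} {k : ℕ} {v : (Fin k → Bool) → (H →L[ℂ] H)}
    (hG : Good M z k p v) (σ : Fin (2 ^ k) ≃ (Fin k → Bool)) : Block M z p fun i => v (σ i) where
  mem i := hG.mem _
  left i := hG.left _
  right i := hG.right _
  orth i j := by rw [hG.orth]; simp
  sum := (σ.sum_comp fun i => star (v i) * v i).trans hG.sum
  proj := hG.proj
  memP := hG.memP

/-- The first row of a system of matrix units is a block. -/
theorem block_of_units {P : ℕ} (f : Units M P) (o : Fin P) :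
    Block M 1 (f.e o o) fun a => f.e o a where
  mem a := f.mem o a
  left a := by rw [f.mul_e, if_pos rfl]
  right a := mul_one _
  orth a b := by rw [f.star_e, f.mul_e]
  sum := by simp [f.star_e, f.mul_e, f.sum_e]
  proj := ⟨by rw [IsIdempotentElem, f.mul_e, if_pos rfl], by rw [IsSelfAdjoint, f.star_e]⟩
  memP := f.mem o o

/-- The matrix units of a block. -/
theorem units_of_block {N : ℕ} {w : Fin N → (H →L[ℂ] H)} (hw : Block M 1 p' w) :
    ∃ e : Units M N, ∀ i j, e.e i j = star (w i) * w j :=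
  ⟨⟨fun i j => star (w i) * w j, fun i j => mul_mem (star_mem (hw.mem i)) (hw.mem j),
    fun i j => by rw [star_mul, star_star], fun i j k l => hw.unit_mul i j k l, hw.sum⟩,
    fun _ _ => rfl⟩

/-- Matrix units extending given ones, whose twirl almost kills the conjugates of their diagonal
projections by finitely many unitaries. -/
theorem exists_flat (hA : NoAbelianProjection M)
    (hsep : ∀ x ∈ M, (∀ ξ : ℕ → H, IsTraceSeq M ξ → ∀ n, x (ξ n) = 0) → x = 0)
    {P : ℕ} [NeZero P] (f : Units M P) (L : List (H →L[ℂ] H))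
    (hL : ∀ a ∈ L, a ∈ M ∧ star a * a = 1) {d : ℝ} (hd : 0 < d) (N0 : ℕ) :
    ∃ m, N0 ≤ m ∧ ∃ e : Units M (P * 2 ^ m),
      (∀ a b, f.e a b = ∑ r, e.e (finProdFinEquiv (a, r)) (finProdFinEquiv (b, r))) ∧
      ∀ a ∈ L, ∀ p, ‖((P * 2 ^ m : ℕ) : ℂ)⁻¹ •
        ∑ i, ∑ j, e.e i j * (a * e.e p p * star a) * e.e j i‖ ≤ d := by
  have hc : ∀ z, ContinuousPart M z := fun z p hp => by rw [hA p hp.1 hp.2.1 hp.2.2, zero_mul]
  obtain ⟨K, hK⟩ := exists_nat_gt (2 / d)
  have hB0 := block_of_units f 0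
  obtain ⟨k, hk, q, v, hv⟩ := good_base (hc _) hB0.proj hB0.memP K
  obtain ⟨σ⟩ : Nonempty (Fin (2 ^ k) ≃ (Fin k → Bool)) := ⟨Fintype.equivOfCardEq (by simp)⟩
  have hBv := block_of_good hv σ
  set R := compR (fun a => f.e 0 a) fun i => v (σ i)
  have hR : Block M 1 q R := hB0.comp hBv
  let Y : List (H →L[ℂ] H) := L.flatMap fun a =>
    List.ofFn fun r => down R (a * (star (R r) * R r) * star a)
  obtain ⟨k', hk', q', v', hv', hn⟩ := good_list (hc q) hR.proj hR.memP
    (show 0 < d / 8 by positivity) N0 Y fun y hy => by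
      simp only [Y, List.mem_flatMap, List.mem_ofFn] at hy
      obtain ⟨a, ha, r, rfl⟩ := hy
      exact ⟨hR.down_mem (mul_mem (mul_mem (hL a ha).1
        (mul_mem (star_mem (hR.mem r)) (hR.mem r))) (star_mem (hL a ha).1)),
        down_sa R ((IsSelfAdjoint.star_mul_self (R r)).conjugate a)⟩
  obtain ⟨σ'⟩ : Nonempty (Fin (2 ^ k') ≃ (Fin k' → Bool)) := ⟨Fintype.equivOfCardEq (by simp)⟩
  have hBv' := block_of_good hv' σ'
  set v2 := compR (fun i => v (σ i)) fun i => v' (σ' i)
  have h2 : Block M (f.e 0 0) q' v2 := hBv.comp hBv'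
  have hm : 2 ^ k * 2 ^ k' = 2 ^ (k + k') := (pow_add 2 k k').symm
  set u : Fin (2 ^ (k + k')) → (H →L[ℂ] H) := fun i => v2 (Fin.cast hm.symm i)
  have hu : Block M (f.e 0 0) q' u := by
    refine ⟨fun i => h2.mem _, fun i => h2.left _, fun i => h2.right _, fun i j => ?_,
      ((finCongr hm.symm).sum_comp fun i => star (v2 i) * v2 i).trans h2.sum, h2.proj, h2.memP⟩
    rw [h2.orth]
    simp
  set w := compR (fun a => f.e 0 a) u
  have hw : Block M 1 q' w := hB0.comp hu
  obtain ⟨e, he⟩ := units_of_block hw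
  refine ⟨k + k', by omega, e, fun a b => ?_, fun a ha p => ?_⟩
  · simp only [he, w, compR, Equiv.symm_apply_apply, star_mul, f.star_e]
    calc f.e a b = f.e a 0 * f.e 0 0 * f.e 0 b := by simp [f.mul_e]
      _ = f.e a 0 * (∑ r, star (u r) * u r) * f.e 0 b := by rw [hu.sum]
      _ = _ := by simp only [Finset.mul_sum, Finset.sum_mul, mul_assoc]
  · obtain ⟨haM, hau⟩ := hL a ha
    obtain ⟨⟨x, i⟩, rfl⟩ := finProdFinEquiv.surjective p
    obtain ⟨⟨r, s⟩, hrs⟩ := finProdFinEquiv.surjective (Fin.cast hm.symm i)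
    set r' := finProdFinEquiv (x, r)
    have hR' : R r' = v (σ r) * f.e 0 x := by simp [R, r', compR]
    have hwr : w (finProdFinEquiv (x, i)) = v' (σ' s) * R r' := by
      simp only [w, u, v2, compR, ← hrs, hR', Equiv.symm_apply_apply, mul_assoc]
    have hle : e.e (finProdFinEquiv (x, i)) (finProdFinEquiv (x, i)) ≤ star (R r') * R r' := by
      rw [he, hwr]
      have h : star (v' (σ' s)) * v' (σ' s) ≤ q := by
        rw [← hBv'.sum]
        exact Finset.single_le_sum
          (f := fun j => star (v' (σ' j)) * v' (σ' j)) (fun j _ => star_mul_self_nonneg _)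
          (Finset.mem_univ s)
      calc star (v' (σ' s) * R r') * (v' (σ' s) * R r')
          = star (R r') * (star (v' (σ' s)) * v' (σ' s)) * R r' := by
            simp only [star_mul, mul_assoc]
        _ ≤ star (R r') * q * R r' := star_left_conjugate_le_conjugate h _
        _ = star (R r') * R r' := by rw [mul_assoc, hR.left]
    have hdown : ∀ y, down w y = avg v' (down R y) := fun y => by
      have e1 : down w y = down (fun i => v' (σ' i)) (down R y) := by
        rw [down_compR, down_compR]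
        have : down u = down v2 := funext fun z => by
          simp only [down]
          congr 1
          · rw [hm]
          · exact (finCongr hm.symm).sum_comp fun i => v2 i * z * star (v2 i)
        rw [this, down_compR]
      rw [e1, down, avg, σ'.sum_comp fun i => v' i * down R y * star (v' i)]
    set P0 := star (R r') * R r'
    obtain ⟨c, hc1, hcs, hcn⟩ := hn (down R (a * P0 * star a)) (by
      simp only [Y, List.mem_flatMap, List.mem_ofFn]
      exact ⟨a, ha, r', rfl⟩)
    rw [← hdown] at hcn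
    have hcl : c ≤ algebraMap ℝ (H →L[ℂ] H) (((P * 2 ^ k : ℕ) : ℝ)⁻¹ + d / 4) :=
      central_le hsep hR r' hw haM hau hc1 hcs (by linarith) hcn
    have hmono : ∀ y z : H →L[ℂ] H, y ≤ z → down w y ≤ down w z := fun y z h => by
      rw [← sub_nonneg, ← down_sub, down]
      rw [show ((P * 2 ^ (k + k') : ℕ) : ℂ)⁻¹ =
          RCLike.ofReal ((P * 2 ^ (k + k') : ℕ) : ℝ)⁻¹ by simp,
        ← RCLike.real_smul_eq_coe_smul (K := ℂ)]
      exact smul_nonneg (by positivity)
        (Finset.sum_nonneg fun j _ => star_right_conjugate_nonneg (sub_nonneg.2 h) _)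
    set B := down w (a * P0 * star a)
    set B' := down w (a * e.e (finProdFinEquiv (x, i)) (finProdFinEquiv (x, i)) * star a)
    have hB'0 : 0 ≤ B' := by
      have := hmono 0 _ (star_right_conjugate_nonneg
        (show 0 ≤ e.e (finProdFinEquiv (x, i)) (finProdFinEquiv (x, i)) by
          rw [he]; exact star_mul_self_nonneg _) a)
      rwa [show down w (0 : H →L[ℂ] H) = 0 by simp [down]] at this
    have hBB : B' ≤ B := hmono _ _ (star_right_conjugate_le_conjugate hle a)
    have hBn : ‖B‖ ≤ d := by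
      have hBs : IsSelfAdjoint B := down_sa w ((IsSelfAdjoint.star_mul_self (R r')).conjugate a)
      have hB0' : 0 ≤ B := hB'0.trans hBB
      have hl : ((P * 2 ^ k : ℕ) : ℝ)⁻¹ ≤ d / 2 := by
        have hK2 : (K : ℝ) ≤ (P * 2 ^ k : ℕ) := Nat.cast_le.2
          ((hk.trans k.lt_two_pow_self.le).trans (Nat.le_mul_of_pos_left _ (NeZero.pos P)))
        rw [inv_le_comm₀ (by positivity [NeZero.pos P]) (by positivity)]
        rw [inv_div]
        exact (hK.le.trans hK2)
      set l := ((P * 2 ^ k : ℕ) : ℝ)⁻¹ + d / 4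
      have hl0 : 0 ≤ l := by positivity
      have hcp : c * q' ≤ algebraMap ℝ (H →L[ℂ] H) l := by
        have hqs := hw.proj.isSelfAdjoint.star_eq
        calc c * q' = star q' * c * q' := by
              rw [hqs, ← hc1.2 q' hw.memP, mul_assoc, hw.proj.isIdempotentElem.eq]
          _ ≤ star q' * algebraMap ℝ (H →L[ℂ] H) l * q' :=
              star_left_conjugate_le_conjugate hcl _
          _ = l • q' := by
              rw [Algebra.algebraMap_eq_smul_one, mul_smul_comm, smul_mul_assoc, hqs, mul_one,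
                hw.proj.isIdempotentElem.eq]
          _ ≤ _ := by
              rw [Algebra.algebraMap_eq_smul_one, ← sub_nonneg, ← smul_sub]
              exact smul_nonneg hl0 (sub_nonneg.2 hw.proj.le_one)
      refine (norm_le_of_mem_Icc hBs (add_nonneg (show 0 ≤ d / 8 by positivity) hl0) ?_
        ((neg_nonpos.2 (algebraMap_nonneg _ (add_nonneg (show 0 ≤ d / 8 by positivity) hl0))).trans
          hB0')).trans (by simp only [l]; linarith)
      have hD : B - c * q' ≤ algebraMap ℝ (H →L[ℂ] H) (d / 8) :=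
        (IsSelfAdjoint.le_algebraMap_norm_self (hBs.sub
          ((IsSelfAdjoint.commute_iff hcs hw.proj.isSelfAdjoint).1 (hc1.2 q' hw.memP)))).trans
          (algebraMap_mono _ hcn)
      rw [map_add]
      calc B = B - c * q' + c * q' := (sub_add_cancel _ _).symm
        _ ≤ _ := add_le_add hD hcp
    simp only [he]
    rw [hw.comb_twirl, ← he]
    exact ((hw.norm_comb_le (IsStarProjection.one _) (IsSelfAdjoint.of_nonneg hB'0)).trans
      (CStarAlgebra.norm_le_norm_of_nonneg_of_le hB'0 hBB)).trans hBn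

end Vale.Agent.P082.Flat
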