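import Vale.Agent.P082.Defs

/-!
P082: Fourier coefficients of a bounded map along a unitary are bounded by the supremum norm
of the test polynomial, and the harmonic sine sums are bounded.
-/

open Finset
open scoped InnerProductSpace

namespace Vale.Agent.P082.Fourier

variable {A : Type*} [CStarAlgebra A]

/-- What is used of the trace. -/
structure IsTrace (τ : A →ₗ[ℂ] ℂ) : Prop where
  pos : ∀ b, 0 ≤ (τ (star b * b)).re
  comm : ∀ x y, τ (x * y) = τ (y * x)
  bound : ∀ b w, ‖τ (star b * b * w)‖ ≤ ‖w‖ * (τ (star b * b)).re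

theorem norm_poly_le {M : ℕ} (c : ℕ → ℂ) (v : A) (hv : v ∈ unitary A) {B : ℝ} (hB : 0 ≤ B)
    (hc : ∀ w : ℂ, ‖w‖ = 1 → ‖∑ k ∈ range M, c k * w ^ k‖ ≤ B) :
    ‖∑ k ∈ range M, c k • v ^ k‖ ≤ B := by
  have hn : IsStarNormal v := ⟨by
    show star v * v = v * star v
    rw [(Unitary.mem_iff.1 hv).1, (Unitary.mem_iff.1 hv).2]⟩
  let q : Polynomial ℂ := ∑ k ∈ range M, Polynomial.C (c k) * Polynomial.X ^ k
  have e : cfc q.eval v = ∑ k ∈ range M, c k • v ^ k := by
    rw [cfc_polynomial q v]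
    simp [q, Algebra.smul_def]
  rw [← e]
  refine norm_cfc_le hB fun w hw => ?_
  simpa [q, Polynomial.eval_finsetSum] using hc w (spectrum.norm_eq_one_of_unitary hv hw)

/-- A power of a root of unity of order `J`, summed over a period. -/
theorem sum_root {J : ℕ} [NeZero J] {ω : ℂ} (hω : IsPrimitiveRoot ω J) {a b : ℕ} (ha : a < J)
    (hb : b < J) :
    ∑ t ∈ range J, ((ω ^ t) ^ a * (ω⁻¹ ^ t) ^ b) = if a = b then (J : ℂ) else 0 := by
  have hω0 : ω ≠ 0 := hω.ne_zero (NeZero.ne J)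
  have e : ∀ t : ℕ, (ω ^ t) ^ a * (ω⁻¹ ^ t) ^ b = (ω ^ a * ω⁻¹ ^ b) ^ t := fun t => by
    rw [← pow_mul, ← pow_mul, mul_comm t a, mul_comm t b, pow_mul, pow_mul, mul_pow]
  simp only [e]
  by_cases hab : a = b
  · subst hab
    simp [mul_inv_cancel₀ (pow_ne_zero _ hω0)]
  · rw [if_neg hab]
    have hne : ω ^ a * ω⁻¹ ^ b ≠ 1 := fun h => hab <| hω.pow_inj ha hb <| by
      rwa [inv_pow, mul_inv_eq_one₀ (pow_ne_zero _ hω0)] at h
    rw [geom_sum_eq hne, mul_pow, ← pow_mul, ← pow_mul, mul_comm a, mul_comm b, pow_mul, pow_mul,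
      inv_pow, hω.pow_eq_one]
    simp

/-- The truncated bound: Fejér weights `K - k`. -/
theorem fejer_le {τ : A →ₗ[ℂ] ℂ} (hτ : IsTrace τ) {h : A →ₗ[ℂ] A} {C : ℝ} (hC : 0 ≤ C)
    (hh : ∀ x, ‖h x‖ ≤ C * ‖x‖) {v : A} (hv : v ∈ unitary A) (z x : A) (M : ℕ) (c : ℕ → ℂ)
    {B : ℝ} (hB : 0 ≤ B) (hc : ∀ w : ℂ, ‖w‖ = 1 → ‖∑ k ∈ range M, c k * w ^ k‖ ≤ B) (K : ℕ) :
    ‖∑ k ∈ range M, c k * ((K - k : ℕ) : ℂ) * τ (z * star v ^ k * h (v ^ k * x))‖ ≤
      K * (C * ‖z‖ * ‖x‖ * B * (τ 1).re) := by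
  by_cases hK : K = 0
  · subst hK; simp
  let J := M + K
  have : NeZero J := ⟨by omega⟩
  obtain ⟨ω, hω⟩ : ∃ ω : ℂ, IsPrimitiveRoot ω J :=
    ⟨_, Complex.isPrimitiveRoot_exp J (NeZero.ne J)⟩
  have hω1 : ‖ω‖ = 1 := hω.norm'_eq_one (NeZero.ne J)
  have hstar : star ω = ω⁻¹ := by
    rw [Complex.inv_def, Complex.normSq_eq_norm_sq, hω1]
    simp
  let b : ℕ → A := fun t => ∑ m ∈ range K, ((ω ^ t) ^ m) • v ^ m
  let y : ℕ → A := fun t => ∑ k ∈ range M, (c k * (ω ^ t) ^ k) • (v ^ k * x)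
  have hbb : ∀ t, star (b t) * b t = ∑ m ∈ range K, ∑ l ∈ range K,
      ((ω⁻¹ ^ t) ^ m * (ω ^ t) ^ l) • (star v ^ m * v ^ l) := fun t => by
    simp only [b, star_sum, star_smul, star_pow, hstar, Finset.sum_mul, Finset.mul_sum,
      smul_mul_assoc, mul_smul_comm, Finset.smul_sum, smul_smul]
    rw [Finset.sum_comm]
    exact sum_congr rfl fun m _ => sum_congr rfl fun l _ => by rw [mul_comm]
  have hcoef : ∀ m ∈ range K, ∀ l ∈ range K, ∀ k ∈ range M,
      ∑ t ∈ range J, ((ω⁻¹ ^ t) ^ m * (ω ^ t) ^ l) * (c k * (ω ^ t) ^ k) =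
        if l + k = m then (J : ℂ) * c k else 0 := fun m hm l hl k hk => by
    simp only [mem_range] at hm hl hk
    have := sum_root hω (a := l + k) (b := m) (by omega) (by omega)
    rw [show (if l + k = m then (J : ℂ) * c k else 0) = c k * if l + k = m then (J : ℂ) else 0 by
      split <;> ring, ← this, mul_sum]
    refine sum_congr rfl fun t _ => ?_
    rw [pow_add]; ring
  have hval : ∑ t ∈ range J, τ (z * (star (b t) * b t) * h (y t)) =
      (J : ℂ) * ∑ k ∈ range M, c k * ((K - k : ℕ) : ℂ) * τ (z * star v ^ k * h (v ^ k * x)) := by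
    have e : ∀ t, τ (z * (star (b t) * b t) * h (y t)) = ∑ m ∈ range K, ∑ l ∈ range K,
        ∑ k ∈ range M, (((ω⁻¹ ^ t) ^ m * (ω ^ t) ^ l) * (c k * (ω ^ t) ^ k)) *
          τ (z * (star v ^ m * v ^ l) * h (v ^ k * x)) := fun t => by
      simp only [hbb, y, map_sum, map_smul, Finset.mul_sum, Finset.sum_mul, mul_smul_comm,
        smul_mul_assoc, smul_eq_mul]
      rw [Finset.sum_comm]
      refine sum_congr rfl fun m _ => ?_
      rw [Finset.sum_comm]
      exact sum_congr rfl fun l _ => sum_congr rfl fun k _ => by ring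
    simp only [e]
    rw [Finset.sum_comm]
    calc _ = ∑ m ∈ range K, ∑ l ∈ range K, ∑ k ∈ range M, (if l + k = m then (J : ℂ) * c k else 0) *
          τ (z * (star v ^ m * v ^ l) * h (v ^ k * x)) := by
          refine sum_congr rfl fun m hm => ?_
          rw [Finset.sum_comm]
          refine sum_congr rfl fun l hl => ?_
          rw [Finset.sum_comm]
          exact sum_congr rfl fun k hk => by rw [← Finset.sum_mul, hcoef m hm l hl k hk]
      _ = ∑ k ∈ range M, ∑ l ∈ range K, ∑ m ∈ range K, (if l + k = m then (J : ℂ) * c k else 0) *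
          τ (z * (star v ^ m * v ^ l) * h (v ^ k * x)) := by
          rw [Finset.sum_comm]
          rw [Finset.sum_congr rfl fun l _ => Finset.sum_comm]
          rw [Finset.sum_comm]
      _ = _ := by
          rw [mul_sum]
          refine sum_congr rfl fun k _ => ?_
          have hfil : (range K).filter (fun l => l + k ∈ range K) = range (K - k) := by
            ext l; simp only [mem_filter, mem_range]; omega
          simp only [ite_mul, zero_mul, Finset.sum_ite_eq]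
          rw [← Finset.sum_filter, hfil]
          have hvv : ∀ l : ℕ, star v ^ (l + k) * v ^ l = star v ^ k := fun l => by
            have h1 : star v ^ l * v ^ l = 1 := by
              rw [← star_pow]; exact (Unitary.mem_iff.1 (pow_mem hv l)).1
            rw [add_comm, pow_add, mul_assoc, h1, mul_one]
          simp only [hvv, sum_const, card_range, nsmul_eq_mul]
          ring
  have htau : ∑ t ∈ range J, τ (star (b t) * b t) = (J : ℂ) * K * τ 1 := by
    simp only [hbb, map_sum, map_smul, smul_eq_mul]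
    rw [Finset.sum_comm]
    calc _ = ∑ m ∈ range K, ∑ l ∈ range K, (if l = m then (J : ℂ) else 0) *
          τ (star v ^ m * v ^ l) := by
          refine sum_congr rfl fun m hm => ?_
          rw [Finset.sum_comm]
          refine sum_congr rfl fun l hl => ?_
          simp only [mem_range] at hm hl
          rw [← Finset.sum_mul, ← sum_root hω (a := l) (b := m) (by omega) (by omega)]
          exact congrArg (· * _) (sum_congr rfl fun t _ => mul_comm _ _)
      _ = _ := by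
          simp only [ite_mul, zero_mul, Finset.sum_ite_eq']
          rw [Finset.sum_congr rfl fun m hm => if_pos hm]
          have h1 : ∀ m : ℕ, star v ^ m * v ^ m = 1 := fun m => by
            rw [← star_pow]; exact (Unitary.mem_iff.1 (pow_mem hv m)).1
          simp [h1]
          ring
  have hterm : ∀ t ∈ range J, ‖τ (z * (star (b t) * b t) * h (y t))‖ ≤
      C * ‖z‖ * ‖x‖ * B * (τ (star (b t) * b t)).re := fun t _ => by
    have h0 := hτ.pos (b t)
    have hy : ‖y t‖ ≤ B * ‖x‖ := by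
      have : y t = (∑ k ∈ range M, (c k * (ω ^ t) ^ k) • v ^ k) * x := by
        simp [y, Finset.sum_mul]
      rw [this]
      refine (norm_mul_le _ _).trans (mul_le_mul_of_nonneg_right ?_ (norm_nonneg _))
      refine norm_poly_le _ v hv hB fun w hw => ?_
      convert hc (ω ^ t * w) (by simp [hω1, hw]) using 2
      exact sum_congr rfl fun k _ => by rw [mul_pow]; ring
    rw [mul_assoc, hτ.comm, mul_assoc]
    refine (hτ.bound (b t) (h (y t) * z)).trans (mul_le_mul_of_nonneg_right ?_ h0)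
    calc ‖h (y t) * z‖ ≤ ‖h (y t)‖ * ‖z‖ := norm_mul_le _ _
      _ ≤ C * (B * ‖x‖) * ‖z‖ := by
        refine mul_le_mul_of_nonneg_right ((hh _).trans ?_) (norm_nonneg _)
        exact mul_le_mul_of_nonneg_left hy hC
      _ = C * ‖z‖ * ‖x‖ * B := by ring
  have hmain := (norm_sum_le _ _).trans (sum_le_sum hterm)
  rw [hval, ← mul_sum, ← Complex.re_sum, htau, norm_mul, Complex.norm_natCast] at hmain
  have hJ : (0 : ℝ) < J := Nat.cast_pos.2 (Nat.pos_of_ne_zero (NeZero.ne J))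
  refine le_of_mul_le_mul_left ?_ hJ
  calc _ ≤ _ := hmain
    _ = _ := by simp; ring

/-- Fourier coefficients along a unitary are bounded by the supremum norm of the test. -/
theorem fourier_le {τ : A →ₗ[ℂ] ℂ} (hτ : IsTrace τ) {h : A →ₗ[ℂ] A} {C : ℝ} (hC : 0 ≤ C)
    (hh : ∀ x, ‖h x‖ ≤ C * ‖x‖) {v : A} (hv : v ∈ unitary A) (z x : A) (M : ℕ) (c : ℕ → ℂ)
    {B : ℝ} (hB : 0 ≤ B) (hc : ∀ w : ℂ, ‖w‖ = 1 → ‖∑ k ∈ range M, c k * w ^ k‖ ≤ B) :
    ‖∑ k ∈ range M, c k * τ (z * star v ^ k * h (v ^ k * x))‖ ≤ C * ‖z‖ * ‖x‖ * B * (τ 1).re := by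
  let φ : ℕ → ℂ := fun k => c k * τ (z * star v ^ k * h (v ^ k * x))
  have hK : ∀ K : ℕ, M ≤ K → (K : ℝ) * ‖∑ k ∈ range M, φ k‖ ≤
      K * (C * ‖z‖ * ‖x‖ * B * (τ 1).re) + ‖∑ k ∈ range M, (k : ℂ) * φ k‖ := fun K hMK => by
    have e : (K : ℂ) * ∑ k ∈ range M, φ k =
        ∑ k ∈ range M, c k * ((K - k : ℕ) : ℂ) * τ (z * star v ^ k * h (v ^ k * x)) +
          ∑ k ∈ range M, (k : ℂ) * φ k := by
      rw [mul_sum, ← sum_add_distrib]
      refine sum_congr rfl fun k hk => ?_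
      rw [Nat.cast_sub ((mem_range.1 hk).le.trans hMK)]
      ring
    have := congrArg norm e
    rw [norm_mul, Complex.norm_natCast] at this
    rw [this]
    exact (norm_add_le _ _).trans (add_le_add (fejer_le hτ hC hh hv z x M c hB hc K) le_rfl)
  refine le_of_forall_pos_le_add fun ε hε => ?_
  obtain ⟨K, hK1⟩ := exists_nat_ge (max ((M : ℝ) + 1) (‖∑ k ∈ range M, (k : ℂ) * φ k‖ / ε))
  obtain ⟨h1, h2⟩ := max_le_iff.1 hK1
  have hKpos : (0 : ℝ) < K := by
    have : (0 : ℝ) ≤ M := Nat.cast_nonneg _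
    linarith
  have := hK K (by exact_mod_cast (show (M : ℝ) ≤ K by linarith))
  rw [div_le_iff₀ hε] at h2
  refine le_of_mul_le_mul_left ?_ hKpos
  rw [mul_add]
  linarith

/-- Abel summation for decreasing weights. -/
theorem abel_le {E : Type*} [SeminormedAddCommGroup E] [NormedSpace ℝ E] (a : ℕ → E) (w : ℕ → ℝ)
    (hw : ∀ i, w (i + 1) ≤ w i) (hw0 : ∀ i, 0 ≤ w i) {B : ℝ}
    (hG : ∀ k, ‖∑ i ∈ range k, a i‖ ≤ B) (k : ℕ) :
    ‖∑ i ∈ range k, w i • a i‖ ≤ B * w 0 := by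
  have key : ∀ k, ‖∑ i ∈ range k, w i • a i - w k • ∑ i ∈ range k, a i‖ ≤ B * (w 0 - w k) := by
    intro k
    induction k with
    | zero => simp
    | succ k ih =>
      have e : ∑ i ∈ range (k + 1), w i • a i - w (k + 1) • ∑ i ∈ range (k + 1), a i =
          (∑ i ∈ range k, w i • a i - w k • ∑ i ∈ range k, a i) +
            (w k - w (k + 1)) • ∑ i ∈ range (k + 1), a i := by
        simp only [sum_range_succ, sub_smul, smul_add]
        abel
      rw [e]
      refine (norm_add_le _ _).trans ?_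
      rw [norm_smul, Real.norm_eq_abs, abs_of_nonneg (sub_nonneg.2 (hw k))]
      nlinarith [hG (k + 1), sub_nonneg.2 (hw k)]
  have h1 := norm_le_norm_add_norm_sub' (∑ i ∈ range k, w i • a i) (w k • ∑ i ∈ range k, a i)
  have h2 : ‖w k • ∑ i ∈ range k, a i‖ ≤ B * w k := by
    rw [norm_smul, Real.norm_eq_abs, abs_of_nonneg (hw0 k), mul_comm]
    exact mul_le_mul_of_nonneg_right (hG k) (hw0 k)
  linarith [key k]

/-- The symmetric partial sums of the series `∑ w ^ n / n` on the circle are bounded. -/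
theorem sine_le {w : ℂ} (hw : ‖w‖ = 1) (N : ℕ) :
    ‖∑ n ∈ range N, ((n : ℝ) + 1)⁻¹ • (w ^ (n + 1) - (w⁻¹) ^ (n + 1))‖ ≤ 10 := by
  have hw' : ‖w⁻¹‖ = 1 := by simp [hw]
  have hdiff : ∀ n : ℕ, ‖w ^ n - w⁻¹ ^ n‖ ≤ 2 * n * ‖1 - w‖ := fun n => by
    have h : ∀ u : ℂ, ‖u‖ = 1 → ‖u ^ n - 1‖ ≤ n * ‖1 - u‖ := fun u hu => by
      rw [← geom_sum_mul, norm_mul, ← norm_sub_rev]
      refine mul_le_mul_of_nonneg_right ?_ (norm_nonneg _)
      refine (norm_sum_le _ _).trans (le_of_eq ?_)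
      simp [hu]
    have e : ‖1 - w⁻¹‖ = ‖1 - w‖ := by
      have hne : w ≠ 0 := fun h0 => by simp [h0] at hw
      rw [show 1 - w⁻¹ = -(w⁻¹ * (1 - w)) by field_simp; ring, norm_neg, norm_mul, hw', one_mul]
    calc ‖w ^ n - w⁻¹ ^ n‖ = ‖(w ^ n - 1) - (w⁻¹ ^ n - 1)‖ := by ring_nf
      _ ≤ n * ‖1 - w‖ + n * ‖1 - w⁻¹‖ := (norm_sub_le _ _).trans (add_le_add (h w hw) (h _ hw'))
      _ = _ := by rw [e]; ring
  by_cases h1 : w = 1
  · subst h1; simp
  have hd : 0 < ‖1 - w‖ := norm_pos_iff.2 (sub_ne_zero.2 (Ne.symm h1))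
  obtain ⟨m, hm1, hm2⟩ : ∃ m : ℕ, (m : ℝ) * ‖1 - w‖ ≤ 1 ∧ 1 ≤ ((m : ℝ) + 1) * ‖1 - w‖ :=
    ⟨⌊‖1 - w‖⁻¹⌋₊, (mul_le_mul_of_nonneg_right (Nat.floor_le (inv_nonneg.2 hd.le)) hd.le).trans_eq
      (inv_mul_cancel₀ hd.ne'), (inv_mul_cancel₀ hd.ne').symm.le.trans
      (mul_le_mul_of_nonneg_right (Nat.lt_floor_add_one _).le hd.le)⟩
  have hhead : ∀ M : ℕ, M ≤ m →
      ‖∑ n ∈ range M, ((n : ℝ) + 1)⁻¹ • (w ^ (n + 1) - (w⁻¹) ^ (n + 1))‖ ≤ 2 := fun M hM => by
    refine (norm_sum_le _ _).trans ((sum_le_sum (g := fun _ => 2 * ‖1 - w‖) fun n _ => ?_).trans ?_)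
    · have hn : (0 : ℝ) < (n : ℝ) + 1 := by positivity
      rw [norm_smul, Real.norm_eq_abs, abs_of_pos (inv_pos.2 hn)]
      refine (inv_mul_le_iff₀ hn).2 ?_
      have := hdiff (n + 1)
      push_cast at this
      linarith
    · rw [sum_const, card_range, nsmul_eq_mul]
      have : (M : ℝ) ≤ m := by exact_mod_cast hM
      nlinarith
  rcases le_or_gt N m with hN | hN
  · exact (hhead N hN).trans (by norm_num)
  · rw [← Finset.sum_range_add_sum_Ico _ hN.le, Finset.sum_Ico_eq_sum_range]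
    refine (norm_add_le _ _).trans ?_
    have htail := abel_le (fun i => w ^ (m + i + 1) - (w⁻¹) ^ (m + i + 1))
      (fun i => (((m + i : ℕ) : ℝ) + 1)⁻¹)
      (fun i => inv_anti₀ (by positivity) (by push_cast; linarith)) (fun i => by positivity)
      (B := 4 / ‖1 - w‖) (fun k => ?_) (N - m)
    · have e4 : 4 / ‖1 - w‖ * (((m + 0 : ℕ) : ℝ) + 1)⁻¹ ≤ 4 := by
        rw [div_mul_eq_mul_div, div_le_iff₀ hd, mul_inv_le_iff₀ (by positivity)]
        simp only [add_zero]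
        nlinarith
      linarith [hhead m le_rfl, htail.trans e4]
    · have g : ∀ u : ℂ, ‖u‖ = 1 → u ≠ 1 → ‖∑ i ∈ range k, u ^ (m + i + 1)‖ ≤ 2 / ‖1 - u‖ :=
        fun u hu hu1 => by
        have : ∑ i ∈ range k, u ^ (m + i + 1) = u ^ (m + 1) * ((u ^ k - 1) / (u - 1)) := by
          rw [← geom_sum_eq hu1, mul_sum]
          exact sum_congr rfl fun i _ => by ring
        rw [this, norm_mul, norm_pow, hu, one_pow, one_mul, norm_div, norm_sub_rev u 1]
        refine div_le_div_of_nonneg_right ((norm_sub_le _ _).trans ?_) (norm_nonneg _)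
        simp [hu]
        norm_num
      have hne : w ≠ 0 := fun h0 => by simp [h0] at hw
      have e : ‖1 - w⁻¹‖ = ‖1 - w‖ := by
        rw [show 1 - w⁻¹ = -(w⁻¹ * (1 - w)) by field_simp; ring, norm_neg, norm_mul, hw', one_mul]
      rw [sum_sub_distrib]
      refine (norm_sub_le _ _).trans ?_
      have := add_le_add (g w hw h1) (g w⁻¹ hw' fun h => h1 (inv_eq_one.1 h))
      rw [e] at this
      calc _ ≤ _ := this
        _ = _ := by ring

end Vale.Agent.P082.Fourier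

namespace Vale.Agent.P082

universe u

variable {H : Type u} [NormedAddCommGroup H] [InnerProductSpace ℂ H] [CompleteSpace H]

theorem isClosed_alg (M : VonNeumannAlgebra H) :
    IsClosed (M.toStarSubalgebra : Set (H →L[ℂ] H)) := by
  have h : IsClosed (Set.centralizer (Set.centralizer (M : Set (H →L[ℂ] H)))) :=
    Set.isClosed_centralizer _
  rwa [VonNeumannAlgebra.centralizer_centralizer] at h

/-- The algebra of a von Neumann algebra is a C*-algebra. -/
@[instance_reducible]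
noncomputable def algCStar (M : VonNeumannAlgebra H) : CStarAlgebra (Alg M) :=
  haveI := isClosed_alg M
  StarSubalgebra.cstarAlgebra M.toStarSubalgebra

attribute [local instance] algCStar

variable {M : VonNeumannAlgebra H} {Ω : H}

/-- The vector functional, as a linear map. -/
noncomputable def trₗ (M : VonNeumannAlgebra H) (Ω : H) : Alg M →ₗ[ℂ] ℂ where
  toFun := tr Ω
  map_add' x y := by simp [tr]
  map_smul' c x := by simp [tr]

theorem TracialVector.tr_comm (hΩ : TracialVector M Ω) (x y : Alg M) :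
    tr Ω (x * y) = tr Ω (y * x) :=
  hΩ.trace _ x.2 _ y.2

theorem tr_star_mul_self (b : Alg M) :
    tr Ω (star b * b) = ((‖(b : H →L[ℂ] H) Ω‖ ^ 2 : ℝ) : ℂ) := by
  show ⟪Ω, ContinuousLinearMap.adjoint (b : H →L[ℂ] H) ((b : H →L[ℂ] H) Ω)⟫_ℂ = _
  rw [ContinuousLinearMap.adjoint_inner_right, inner_self_eq_norm_sq_to_K]
  simp

theorem TracialVector.isTrace (hΩ : TracialVector M Ω) : Fourier.IsTrace (trₗ M Ω) where
  pos b := by
    show 0 ≤ (tr Ω (star b * b)).re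
    rw [tr_star_mul_self, Complex.ofReal_re]
    positivity
  comm := hΩ.tr_comm
  bound b w := by
    show ‖tr Ω (star b * b * w)‖ ≤ ‖w‖ * (tr Ω (star b * b)).re
    rw [mul_assoc, hΩ.tr_comm, hΩ.tr_comm (star b) b]
    have e : tr Ω (b * star b) = ((‖(star b : Alg M).1 Ω‖ ^ 2 : ℝ) : ℂ) := by
      simpa using tr_star_mul_self (Ω := Ω) (star b)
    rw [e, Complex.ofReal_re]
    show ‖⟪Ω, (b : H →L[ℂ] H) ((w : H →L[ℂ] H) ((star b : Alg M).1 Ω))⟫_ℂ‖ ≤ _
    rw [← ContinuousLinearMap.adjoint_inner_left]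
    refine (norm_inner_le_norm _ _).trans ?_
    refine (mul_le_mul_of_nonneg_left ((w : H →L[ℂ] H).le_opNorm _) (norm_nonneg _)).trans_eq ?_
    show ‖(star b : Alg M).1 Ω‖ * (‖w‖ * ‖(star b : Alg M).1 Ω‖) = _
    ring

/-- Fourier coefficients of `T` along `v` are bounded by the supremum of the test polynomial. -/
theorem fourier_bound (hΩ : TracialVector M Ω) (T : Alg M →ₗ[ℂ] Alg M) {C : ℝ}
    (hC : ∀ x, ‖T x‖ ≤ C * ‖x‖) (v : unitary (Alg M)) (z x : Alg M) (s : Finset ℤ) (c : ℤ → ℂ)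
    {B : ℝ} (hB : ∀ t : ℝ, ‖∑ n ∈ s, c n * Complex.exp ((n : ℂ) * t * Complex.I)‖ ≤ B) :
    ‖∑ n ∈ s, c n * tr Ω (z * ((v ^ (-n) : unitary (Alg M)) : Alg M) *
      T (((v ^ n : unitary (Alg M)) : Alg M) * x))‖ ≤ C * B * ‖z‖ * ‖x‖ * ‖Ω‖ ^ 2 := by
  have hB0 : 0 ≤ B := (norm_nonneg _).trans (hB 0)
  rcases eq_or_ne x 0 with rfl | hx
  · simp [tr]
  have hC0 : 0 ≤ C := nonneg_of_mul_nonneg_left ((norm_nonneg _).trans (hC x)) (norm_pos_iff.2 hx)
  set N : ℕ := s.sup Int.natAbs + 1 with hN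
  let c' : ℕ → ℂ := fun k => if ((k : ℤ) - N) ∈ s then c ((k : ℤ) - N) else 0
  have reindex : ∀ f : ℤ → ℂ,
      ∑ k ∈ range (2 * N), c' k * f ((k : ℤ) - N) = ∑ n ∈ s, c n * f n := fun f => by
    simp only [c', ite_mul, zero_mul]
    rw [← Finset.sum_filter]
    refine Finset.sum_bij (fun k _ => (k : ℤ) - N) (fun k hk => (mem_filter.1 hk).2)
      (fun a _ b _ h => by simpa using h) (fun n hn => ⟨(n + N).toNat, ?_⟩) (fun k _ => rfl)
    have h1 : n.natAbs ≤ s.sup Int.natAbs := Finset.le_sup (f := Int.natAbs) hn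
    have h2 : ((n + N).toNat : ℤ) - N = n := by omega
    refine ⟨mem_filter.2 ⟨mem_range.2 (by omega), by rwa [h2]⟩, h2⟩
  have hc : ∀ w : ℂ, ‖w‖ = 1 → ‖∑ k ∈ range (2 * N), c' k * w ^ k‖ ≤ B := fun w hw => by
    obtain ⟨t, rfl⟩ := Complex.norm_eq_one_iff _ |>.1 hw
    have e : ∀ k : ℕ, Complex.exp (t * Complex.I) ^ k = Complex.exp (t * Complex.I) ^ N *
        Complex.exp ((((k : ℤ) - N : ℤ) : ℂ) * t * Complex.I) := fun k => by
      rw [← Complex.exp_nat_mul, ← Complex.exp_nat_mul, ← Complex.exp_add]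
      congr 1
      push_cast
      ring
    rw [sum_congr rfl fun k _ => by rw [e k, mul_left_comm], ← mul_sum, norm_mul, norm_pow, hw,
      one_pow, one_mul]
    rw [reindex fun n => Complex.exp ((n : ℂ) * t * Complex.I)]
    exact hB t
  have h := Fourier.fourier_le hΩ.isTrace hC0 hC v.2 (z * ((v ^ N : unitary (Alg M)) : Alg M))
    (((v ^ (-(N : ℤ)) : unitary (Alg M)) : Alg M) * x) (2 * N) c' hB0 hc
  rw [CStarRing.norm_mul_coe_unitary, CStarRing.norm_coe_unitary_mul] at h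
  have hterm : ∀ k : ℕ, trₗ M Ω (z * ((v ^ N : unitary (Alg M)) : Alg M) * star (v : Alg M) ^ k *
      T ((v : Alg M) ^ k * (((v ^ (-(N : ℤ)) : unitary (Alg M)) : Alg M) * x))) =
      tr Ω (z * ((v ^ (-((k : ℤ) - N)) : unitary (Alg M)) : Alg M) *
        T (((v ^ ((k : ℤ) - N) : unitary (Alg M)) : Alg M) * x)) := fun k => by
    have e1 : v ^ (-((k : ℤ) - N)) = v ^ N * star v ^ k := by
      rw [Unitary.star_eq_inv, inv_pow, neg_sub, zpow_sub, zpow_natCast, zpow_natCast]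
    have e2 : v ^ ((k : ℤ) - N) = v ^ k * v ^ (-(N : ℤ)) := by
      rw [sub_eq_add_neg, zpow_add, zpow_natCast]
    rw [e1, e2]
    simp only [Submonoid.coe_mul, SubmonoidClass.coe_pow, Unitary.coe_star, mul_assoc]
    rfl
  simp only [hterm] at h
  rw [reindex fun n => tr Ω (z * ((v ^ (-n) : unitary (Alg M)) : Alg M) *
    T (((v ^ n : unitary (Alg M)) : Alg M) * x))] at h
  refine h.trans_eq ?_
  have e : (trₗ M Ω 1).re = ‖Ω‖ ^ 2 := inner_self_eq_norm_sq (𝕜 := ℂ) Ω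
  rw [e]
  ring

/-- Nonnegative weights of arbitrarily large total mass with bounded sine polynomials. -/
theorem sine_weights (K : ℝ) : ∃ (N : ℕ) (c : ℕ → ℝ), (∀ m, 0 ≤ c m) ∧
    K ≤ ∑ m ∈ Finset.Icc 1 N, c m ∧
    ∀ t : ℝ, |∑ m ∈ Finset.Icc 1 N, c m * Real.sin (m * t)| ≤ 3 := by
  obtain ⟨N, hN⟩ := exists_nat_ge (Real.exp (5 * K / 3))
  have hshift : ∀ f : ℕ → ℝ, ∑ m ∈ Finset.Icc 1 N, f m = ∑ n ∈ range N, f (n + 1) := fun f => by
    rw [range_eq_Ico, Finset.sum_Ico_add' f 0 N 1, zero_add, Finset.Ico_add_one_right_eq_Icc]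
  refine ⟨N, fun m => 3 / 5 * (m : ℝ)⁻¹, fun m => by positivity, ?_, fun t => ?_⟩
  · have h1 : 5 * K / 3 ≤ (harmonic N : ℝ) := by
      refine le_trans ?_ (log_add_one_le_harmonic N)
      rw [Real.le_log_iff_exp_le (by positivity)]
      push_cast
      linarith
    have h2 : (harmonic N : ℝ) = ∑ m ∈ Finset.Icc 1 N, (m : ℝ)⁻¹ := by
      rw [harmonic_eq_sum_Icc]; push_cast; rfl
    rw [← mul_sum, ← h2]
    linarith
  · have h := Fourier.sine_le (Complex.norm_exp_ofReal_mul_I t) N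
    have e : ∀ n : ℕ, ((n : ℝ) + 1)⁻¹ • (Complex.exp (t * Complex.I) ^ (n + 1) -
        (Complex.exp (t * Complex.I))⁻¹ ^ (n + 1)) =
        2 * Complex.I * ((((n : ℝ) + 1)⁻¹ * Real.sin (((n + 1 : ℕ) : ℝ) * t) : ℝ) : ℂ) := fun n => by
      rw [← Complex.exp_neg, ← Complex.exp_nat_mul, ← Complex.exp_nat_mul]
      have hs := Complex.two_sin (((n + 1 : ℕ) : ℂ) * t)
      rw [Complex.real_smul, Complex.ofReal_mul, Complex.ofReal_sin, Complex.ofReal_mul,
        Complex.ofReal_natCast]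
      rw [show ((n + 1 : ℕ) : ℂ) * (t * Complex.I) = ((n + 1 : ℕ) : ℂ) * t * Complex.I by ring,
        show ((n + 1 : ℕ) : ℂ) * -(t * Complex.I) = -(((n + 1 : ℕ) : ℂ) * t) * Complex.I by ring]
      linear_combination (-(Complex.I * (((((n : ℝ) + 1)⁻¹ : ℝ) : ℂ)))) * hs +
        ((((((n : ℝ) + 1)⁻¹ : ℝ) : ℂ)) * (Complex.exp (((n + 1 : ℕ) : ℂ) * t * Complex.I) -
          Complex.exp (-(((n + 1 : ℕ) : ℂ) * t) * Complex.I))) * Complex.I_mul_I
    simp only [e, ← mul_sum, ← Complex.ofReal_sum, norm_mul, Complex.norm_I, Complex.norm_two,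
      mul_one, Complex.norm_real, Real.norm_eq_abs] at h
    rw [hshift]
    have e3 : ∀ n : ℕ, 3 / 5 * (((n + 1 : ℕ) : ℝ))⁻¹ * Real.sin (((n + 1 : ℕ) : ℝ) * t) =
        3 / 5 * (((n : ℝ) + 1)⁻¹ * Real.sin (((n + 1 : ℕ) : ℝ) * t)) := fun n => by
      push_cast; ring
    simp only [e3, ← mul_sum, abs_mul]
    rw [abs_of_nonneg (by norm_num : (0 : ℝ) ≤ 3 / 5)]
    linarith

end Vale.Agent.P082
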