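import Vale.Agent.P082.Defs
import Vale.Agent.P104.Discrete.Weak

/-!
P082: weak limits of bounded families of cochains.
-/

open scoped InnerProductSpace Topology
open Filter

namespace Vale.Agent.P082

universe u

variable {H : Type u} [NormedAddCommGroup H] [InnerProductSpace ℂ H] [CompleteSpace H]
variable {M : VonNeumannAlgebra H}

/-- `a i` tends weakly to `b`. -/
def TendsW {ι : Type*} (l : Filter ι) (a : ι → Alg M) (b : Alg M) : Prop :=
  ∀ ξ η : H, Tendsto (fun i => ⟪ξ, (a i : H →L[ℂ] H) η⟫_ℂ) l (𝓝 ⟪ξ, (b : H →L[ℂ] H) η⟫_ℂ)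

namespace TendsW

variable {ι : Type*} {l : Filter ι} {a a' : ι → Alg M} {b b' : Alg M}

theorem unique [l.NeBot] (h : TendsW l a b) (h' : TendsW l a b') : b = b' :=
  Subtype.ext (P104.Discrete.TendsWeak.unique (F := l) h h')

theorem const (b : Alg M) : TendsW l (fun _ => b) b := fun _ _ => tendsto_const_nhds

theorem congr' (h : TendsW l a b) (e : ∀ᶠ i in l, a i = a' i) : TendsW l a' b :=
  fun ξ η => (h ξ η).congr' (e.mono fun i hi => by rw [hi])

theorem congr (h : TendsW l a b) (e : ∀ i, a i = a' i) : TendsW l a' b :=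
  h.congr' (Eventually.of_forall e)

theorem add (h : TendsW l a b) (h' : TendsW l a' b') :
    TendsW l (fun i => a i + a' i) (b + b') := fun ξ η => by
  simpa [inner_add_right] using (h ξ η).add (h' ξ η)

theorem sub (h : TendsW l a b) (h' : TendsW l a' b') :
    TendsW l (fun i => a i - a' i) (b - b') := fun ξ η => by
  simpa [inner_sub_right] using (h ξ η).sub (h' ξ η)

theorem smul (h : TendsW l a b) (c : ℂ) : TendsW l (fun i => c • a i) (c • b) := fun ξ η => by
  simpa [inner_smul_right] using (h ξ η).const_mul c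

theorem neg (h : TendsW l a b) : TendsW l (fun i => -a i) (-b) := fun ξ η => by
  simpa [inner_neg_right] using (h ξ η).neg

theorem mul_left (h : TendsW l a b) (c : Alg M) : TendsW l (fun i => c * a i) (c * b) :=
  fun ξ η => (P104.Discrete.TendsWeak.mulLeft (F := l) h (c : H →L[ℂ] H)) ξ η

theorem mul_right (h : TendsW l a b) (c : Alg M) : TendsW l (fun i => a i * c) (b * c) :=
  fun ξ η => (P104.Discrete.TendsWeak.mulRight (F := l) h (c : H →L[ℂ] H)) ξ η

theorem sum {κ : Type*} (s : Finset κ) {a : κ → ι → Alg M} {b : κ → Alg M}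
    (h : ∀ j ∈ s, TendsW l (a j) (b j)) :
    TendsW l (fun i => ∑ j ∈ s, a j i) (∑ j ∈ s, b j) := by
  induction s using Finset.cons_induction with
  | empty => simpa using const (0 : Alg M)
  | cons j s hj ih =>
    simp only [Finset.sum_cons]
    exact (h j (Finset.mem_cons_self j s)).add (ih fun k hk => h k (Finset.mem_cons_of_mem hk))

theorem norm_le [l.NeBot] (h : TendsW l a b) {c : ℝ} (hc : 0 ≤ c) (ha : ∀ᶠ i in l, ‖a i‖ ≤ c) :
    ‖b‖ ≤ c :=
  P104.Discrete.TendsWeak.norm_le (F := l) h hc ha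

theorem norm_vec_le [l.NeBot] (h : TendsW l a b) (ξ : H) {c : ℝ} (hc : 0 ≤ c)
    (ha : ∀ᶠ i in l, ‖(a i : H →L[ℂ] H) ξ‖ ≤ c) : ‖(b : H →L[ℂ] H) ξ‖ ≤ c := by
  set w := (b : H →L[ℂ] H) ξ with hw
  have h1 : ‖⟪w, w⟫_ℂ‖ ≤ ‖w‖ * c :=
    le_of_tendsto (h w ξ).norm (ha.mono fun i hi =>
      (norm_inner_le_norm _ _).trans (mul_le_mul_of_nonneg_left hi (norm_nonneg _)))
  rw [inner_self_eq_norm_sq_to_K, norm_pow, RCLike.norm_ofReal, abs_norm, pow_two] at h1
  rcases (norm_nonneg w).eq_or_lt with h0 | h0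
  · rw [← h0]; exact hc
  · exact le_of_mul_le_mul_left h1 h0

end TendsW

theorem exists_tendsW {ι : Type*} (U : Ultrafilter ι) (a : ι → Alg M) {C : ℝ}
    (hC : ∀ i, ‖a i‖ ≤ C) : ∃ b, TendsW (U : Filter ι) a b := by
  obtain ⟨L, hL⟩ := P104.Discrete.exists_tendsWeak U (fun i => (a i : H →L[ℂ] H)) hC
  exact ⟨⟨L, P104.Discrete.mem_of_tendsWeak M hL fun i => (a i).2⟩, hL⟩

theorem hoch_tendsW {ι : Type*} {l : Filter ι} {n : ℕ} {F : ι → Cochain M n} {G : Cochain M n}
    (h : ∀ y, TendsW l (fun i => F i y) (G y)) (x : Fin (n + 1) → Alg M) :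
    TendsW l (fun i => hoch (F i) x) (hoch G x) :=
  (((h _).mul_left (x 0)).add (TendsW.sum _ fun _ _ => (h _).smul _)).add
    (((h _).mul_right (x (Fin.last n))).smul _)

/-- A bounded family of cochains has a pointwise weak limit along an ultrafilter. -/
theorem exists_limit {ι : Type*} (U : Ultrafilter ι) {n : ℕ} (F : ι → Cochain M n) {C : ℝ}
    (hC0 : 0 ≤ C) (hC : ∀ i, ‖F i‖ ≤ C) :
    ∃ G : Cochain M n, ‖G‖ ≤ C ∧ ∀ y, TendsW (U : Filter ι) (fun i => F i y) (G y) := by
  have hb : ∀ y i, ‖F i y‖ ≤ C * ∏ j, ‖y j‖ := fun y i => (F i).le_of_opNorm_le (hC i) y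
  choose G hG using fun y => exists_tendsW U (fun i => F i y) (hb y)
  let G' : MultilinearMap ℂ (fun _ : Fin n => Alg M) (Alg M) :=
    { toFun := G
      map_update_add' := fun {inst} y j a b => by
        have := Subsingleton.elim inst (instDecidableEqFin n)
        subst this
        exact (hG _).unique (((hG _).add (hG _)).congr fun i => ((F i).map_update_add y j a b).symm)
      map_update_smul' := fun {inst} y j c a => by
        have := Subsingleton.elim inst (instDecidableEqFin n)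
        subst this
        exact (hG _).unique (((hG _).smul c).congr fun i => ((F i).map_update_smul y j c a).symm) }
  have hbd : ∀ y, ‖G' y‖ ≤ C * ∏ j, ‖y j‖ := fun y =>
    (hG y).norm_le (by positivity) (Eventually.of_forall (hb y))
  exact ⟨G'.mkContinuous C hbd, MultilinearMap.mkContinuous_norm_le _ hC0 _, hG⟩

end Vale.Agent.P082
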