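import Vale.Agent.P082.Hoch
import Vale.Agent.P082.Limit

/-!
P082: a cocycle is a coboundary once some limit of averages of its moves is left modular in the
first variable, and left modularity may be obtained approximately, finitely many conditions at a
time.
-/

open scoped InnerProductSpace Topology
open Filter

namespace Vale.Agent.P082

universe u

variable {H : Type u} [NormedAddCommGroup H] [InnerProductSpace ℂ H] [CompleteSpace H]
variable {M : VonNeumannAlgebra H} {n : ℕ}

/-- The cochain with its first variable multiplied on the left by `u`. -/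
noncomputable def cutC (u : Alg M) (F : Cochain M (n + 1)) : Cochain M (n + 1) :=
  F.compContinuousLinearMap
    (Fin.cons (ContinuousLinearMap.mul ℂ (Alg M) u) fun _ => ContinuousLinearMap.id ℂ (Alg M))

theorem cutC_apply (u : Alg M) (F : Cochain M (n + 1)) (x : Fin (n + 1) → Alg M) :
    cutC u F x = F (Fin.cons (u * x 0) fun i => x i.succ) := by
  rw [cutC, ContinuousMultilinearMap.compContinuousLinearMap_apply]
  congr 1
  funext i
  refine Fin.cases ?_ (fun i => ?_) i <;> simp

/-- The move of a cochain by `u`. -/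
noncomputable def act (u : Alg M) (F : Cochain M (n + 1)) : Cochain M (n + 1) :=
  lmulC (star u) (cutC u F)

theorem act_apply (u : Alg M) (F : Cochain M (n + 1)) (x : Fin (n + 1) → Alg M) :
    act u F x = star u * F (Fin.cons (u * x 0) fun i => x i.succ) := by
  rw [act, lmulC_apply, cutC_apply]

theorem act_cons (u : Alg M) (F : Cochain M (n + 1)) (w : Alg M) (y : Fin n → Alg M) :
    act u F (Fin.cons w y) = star u * F (Fin.cons (u * w) y) := by
  simp [act_apply]

theorem act_act (u w : Alg M) (F : Cochain M (n + 1)) : act u (act w F) = act (w * u) F := by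
  ext x
  simp [act_apply, mul_assoc]

theorem act_one (F : Cochain M (n + 1)) : act 1 F = F := by
  ext x
  simp only [act_apply, star_one, one_mul]
  congr 3
  funext i
  refine Fin.cases ?_ (fun i => ?_) i <;> simp

theorem act_add (u : Alg M) (F G : Cochain M (n + 1)) : act u (F + G) = act u F + act u G := by
  ext x
  simp [act_apply, mul_add]

theorem act_smul (u : Alg M) (c : ℂ) (F : Cochain M (n + 1)) : act u (c • F) = c • act u F := by
  ext x
  simp [act_apply]

theorem act_sum {κ : Type*} (u : Alg M) (s : Finset κ) (F : κ → Cochain M (n + 1)) :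
    act u (∑ i ∈ s, F i) = ∑ i ∈ s, act u (F i) := by
  ext x
  simp [act_apply, Finset.mul_sum]

theorem act_curry (u : Alg M) (F : Cochain M (n + 1)) :
    (act u F).curryLeft 1 = lmulC (star u) (F.curryLeft u) := by
  ext y
  simp [act_apply]

theorem norm_le_one_of_mem_unitary {u : Alg M} (hu : u ∈ unitary (Alg M)) : ‖u‖ ≤ 1 := by
  refine ContinuousLinearMap.opNorm_le_bound _ zero_le_one fun ξ => ?_
  rw [one_mul]
  have h : star (u : H →L[ℂ] H) * u = 1 := congrArg Subtype.val (Unitary.mem_iff.1 hu).1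
  refine le_of_eq ?_
  have h1 : ⟪(u : H →L[ℂ] H) ξ, (u : H →L[ℂ] H) ξ⟫_ℂ = ⟪ξ, ξ⟫_ℂ := by
    rw [← ContinuousLinearMap.adjoint_inner_right, ← ContinuousLinearMap.star_eq_adjoint,
      show star (u : H →L[ℂ] H) ((u : H →L[ℂ] H) ξ) = (star (u : H →L[ℂ] H) * u) ξ from rfl, h]
    rfl
  rw [inner_self_eq_norm_sq_to_K, inner_self_eq_norm_sq_to_K] at h1
  exact (sq_eq_sq₀ (norm_nonneg _) (norm_nonneg _)).1 (by exact_mod_cast h1)

theorem norm_act_le {u : Alg M} (hu : u ∈ unitary (Alg M)) (F : Cochain M (n + 1)) :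
    ‖act u F‖ ≤ ‖F‖ := by
  refine ContinuousMultilinearMap.opNorm_le_bound (norm_nonneg _) fun x => ?_
  rw [act_apply]
  refine (norm_mul_le _ _).trans ((mul_le_of_le_one_left (norm_nonneg _)
    (norm_le_one_of_mem_unitary (Unitary.star_mem hu))).trans ?_)
  refine (F.le_opNorm _).trans (mul_le_mul_of_nonneg_left ?_ (norm_nonneg _))
  simp only [Fin.prod_univ_succ, Fin.cons_zero, Fin.cons_succ]
  exact mul_le_mul_of_nonneg_right ((norm_mul_le _ _).trans
    (mul_le_of_le_one_left (norm_nonneg _) (norm_le_one_of_mem_unitary hu)))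
    (Finset.prod_nonneg fun j _ => norm_nonneg _)

/-- The bookkeeping identity. -/
def Ident (f F : Cochain M (n + 1)) : Prop :=
  ∀ x, f x = F x - x 0 * F.curryLeft 1 (fun i => x i.succ) + hoch (F.curryLeft 1) x

/-- Every move of a cocycle satisfies the identity. -/
theorem ident_act {f : Cochain M (n + 1)} (hf : ∀ x, hoch f x = 0) {u : Alg M}
    (hu : star u * u = 1) : Ident f (act u f) := by
  intro x
  set t : Fin n → Alg M := fun i => x i.succ with ht
  have e1 := hoch_cons f u x
  rw [hf, ContinuousMultilinearMap.curryLeft_apply, ← ht] at e1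
  have h3 : u * f x =
      f (Fin.cons (u * x 0) t) - x 0 * f (Fin.cons u t) + hoch (f.curryLeft u) x := by
    rw [← sub_eq_zero]
    refine Eq.trans ?_ e1.symm
    abel
  have e6 : f x = star u * (u * f x) := by rw [← mul_assoc, hu, one_mul]
  rw [act_curry, act_apply, hoch_lmulC, lmulC_apply, ContinuousMultilinearMap.curryLeft_apply, ← ht,
    e6, h3]
  noncomm_ring

theorem hoch_sum {κ : Type*} (s : Finset κ) (c : κ → ℂ) (g : κ → Cochain M n)
    (x : Fin (n + 1) → Alg M) :
    hoch (∑ i ∈ s, c i • g i) x = ∑ i ∈ s, c i • hoch (g i) x := by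
  induction s using Finset.cons_induction with
  | empty =>
    rw [Finset.sum_empty, Finset.sum_empty, ← sub_self (0 : Cochain M n), hoch_sub, sub_self]
  | cons i s hi ih => rw [Finset.sum_cons, Finset.sum_cons, hoch_add, hoch_smul, ih]

theorem curry_sum {κ : Type*} (s : Finset κ) (c : κ → ℂ) (G : κ → Cochain M (n + 1)) (a : Alg M) :
    (∑ i ∈ s, c i • G i).curryLeft a = ∑ i ∈ s, c i • (G i).curryLeft a := by
  refine ContinuousMultilinearMap.ext fun y => ?_
  rw [ContinuousMultilinearMap.curryLeft_apply, sum_apply, sum_apply]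
  exact Finset.sum_congr rfl fun i _ => rfl

/-- The identity passes to convex combinations. -/
theorem ident_sum {κ : Type*} {s : Finset κ} {c : κ → ℝ} (hc1 : ∑ i ∈ s, c i = 1)
    {f : Cochain M (n + 1)} {G : κ → Cochain M (n + 1)} (h : ∀ i ∈ s, Ident f (G i)) :
    Ident f (∑ i ∈ s, (c i : ℂ) • G i) := by
  intro x
  calc f x = ∑ i ∈ s, (c i : ℂ) • f x := by
        rw [← Finset.sum_smul, ← Complex.ofReal_sum, hc1, Complex.ofReal_one, one_smul]
    _ = ∑ i ∈ s, ((c i : ℂ) • G i x - x 0 * ((c i : ℂ) • (G i).curryLeft 1 (fun j => x j.succ)) +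
          (c i : ℂ) • hoch ((G i).curryLeft 1) x) :=
        Finset.sum_congr rfl fun i hi => by rw [h i hi x, smul_add, smul_sub, mul_smul_comm]
    _ = _ := by
        rw [curry_sum, hoch_sum, Finset.sum_add_distrib, Finset.sum_sub_distrib, ← Finset.mul_sum,
          sum_apply, sum_apply]
        rfl

/-- The candidates: bounded by `f`, every move satisfying the identity. -/
structure InHull (f F : Cochain M (n + 1)) : Prop where
  ident : ∀ u ∈ unitary (Alg M), Ident f (act u F)
  norm_le : ‖F‖ ≤ ‖f‖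

theorem inHull_self {f : Cochain M (n + 1)} (hf : ∀ x, hoch f x = 0) : InHull f f :=
  ⟨fun _ hu => ident_act hf (Unitary.mem_iff.1 hu).1, le_rfl⟩

namespace InHull

variable {f F : Cochain M (n + 1)}

theorem ident_self (h : InHull f F) : Ident f F := by
  simpa [act_one] using h.ident 1 (one_mem _)

theorem act (h : InHull f F) {u : Alg M} (hu : u ∈ unitary (Alg M)) : InHull f (act u F) :=
  ⟨fun w hw => by rw [act_act]; exact h.ident _ (mul_mem hu hw),
    (norm_act_le hu F).trans h.norm_le⟩

/-- Convex combinations stay in the hull. -/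
theorem sum {κ : Type*} {s : Finset κ} {c : κ → ℝ} (hc : ∀ i ∈ s, 0 ≤ c i)
    (hc1 : ∑ i ∈ s, c i = 1) {G : κ → Cochain M (n + 1)} (h : ∀ i ∈ s, InHull f (G i)) :
    InHull f (∑ i ∈ s, (c i : ℂ) • G i) := by
  refine ⟨fun u hu => ?_, ?_⟩
  · rw [act_sum]
    simp only [act_smul]
    exact ident_sum hc1 fun i hi => (h i hi).ident u hu
  · refine (norm_sum_le _ _).trans ?_
    calc ∑ i ∈ s, ‖(c i : ℂ) • G i‖ ≤ ∑ i ∈ s, c i * ‖f‖ := Finset.sum_le_sum fun i hi => by
          rw [norm_smul, Complex.norm_real, Real.norm_of_nonneg (hc i hi)]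
          exact mul_le_mul_of_nonneg_left (h i hi).norm_le (hc i hi)
      _ = ‖f‖ := by rw [← Finset.sum_mul, hc1, one_mul]

/-- Pointwise weak limits stay in the hull. -/
theorem limit {ι : Type*} (U : Ultrafilter ι) {G : ι → Cochain M (n + 1)}
    (h : ∀ i, InHull f (G i)) {L : Cochain M (n + 1)}
    (hL : ∀ y, TendsW (U : Filter ι) (fun i => G i y) (L y)) : InHull f L := by
  refine ⟨fun u hu x => ?_, ?_⟩
  · have hact : ∀ y, TendsW (U : Filter ι) (fun i => Vale.Agent.P082.act u (G i) y)
        (Vale.Agent.P082.act u L y) := fun y => by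
      simp only [act_apply]
      exact (hL _).mul_left _
    have h1 : TendsW (U : Filter ι) (fun _ => f x)
        (Vale.Agent.P082.act u L x -
          x 0 * (Vale.Agent.P082.act u L).curryLeft 1 (fun i => x i.succ) +
          hoch ((Vale.Agent.P082.act u L).curryLeft 1) x) :=
      (((hact x).sub ((hact _).mul_left _)).add
        (hoch_tendsW (F := fun i => (Vale.Agent.P082.act u (G i)).curryLeft 1) (fun y => hact _) x)
        ).congr fun i => ((h i).ident u hu x).symm
    exact (TendsW.const (f x)).unique h1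
  · refine ContinuousMultilinearMap.opNorm_le_bound (norm_nonneg _) fun y => ?_
    exact (hL y).norm_le (by positivity)
      (Eventually.of_forall fun i => (G i).le_of_opNorm_le (h i).norm_le y)

end InHull

/-- `F` commutes with left multiplication by `s` in its first variable. -/
def LeftMod (F : Cochain M (n + 1)) (s : Alg M) : Prop :=
  ∀ w y, F (Fin.cons (s * w) y) = s * F (Fin.cons w y)

/-- The elements for which `F` is left modular form a subalgebra. -/
def leftModAlg (F : Cochain M (n + 1)) : Subalgebra ℂ (Alg M) where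
  carrier := {s | LeftMod F s}
  mul_mem' := fun {a b} ha hb w y => by rw [mul_assoc, ha, hb, mul_assoc]
  one_mem' := fun w y => by rw [one_mul, one_mul]
  add_mem' := fun {a b} ha hb w y => by rw [add_mul, F.cons_add, ha, hb, add_mul]
  zero_mem' := fun w y => by
    have h := F.cons_smul y (0 : ℂ) w
    simp only [zero_smul] at h
    rw [zero_mul, zero_mul, h]
  algebraMap_mem' := fun c w y => by
    rw [Algebra.algebraMap_eq_smul_one, smul_mul_assoc, one_mul, F.cons_smul, smul_mul_assoc,
      one_mul]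

theorem leftMod_of_act {F : Cochain M (n + 1)} {u : Alg M} (hu : u ∈ unitary (Alg M))
    (h : act u F = F) : LeftMod F u := fun w y => by
  conv_rhs => rw [← h, act_cons, ← mul_assoc, (Unitary.mem_iff.1 hu).2, one_mul]

theorem LeftMod.act_eq {F : Cochain M (n + 1)} {u : Alg M} (h : LeftMod F u)
    (hu : u ∈ unitary (Alg M)) : act u F = F := by
  refine ContinuousMultilinearMap.ext fun x => ?_
  rw [act_apply, h, ← mul_assoc, (Unitary.mem_iff.1 hu).1, one_mul]
  exact congrArg F (Fin.cons_self_tail x)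

/-- A candidate modular for generators of the algebra yields the cochain, with the norm bound. -/
theorem exists_primitive {f : Cochain M (n + 1)} {F : Cochain M (n + 1)} (hF : InHull f F)
    {S : Set (Alg M)} (hS : Algebra.adjoin ℂ S = ⊤) (hmod : ∀ s ∈ S, LeftMod F s) :
    ∃ g : Cochain M n, ∀ x, f x = hoch g x := by
  refine ⟨F.curryLeft 1, fun x => ?_⟩
  have h : x 0 ∈ leftModAlg F :=
    (Algebra.adjoin_le (R := ℂ) (S := leftModAlg F) hmod) (by rw [hS]; trivial)
  have h1 := h 1 (fun i => x i.succ)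
  rw [mul_one] at h1
  have h2 : F x = x 0 * F.curryLeft 1 (fun i => x i.succ) := by
    rw [ContinuousMultilinearMap.curryLeft_apply, ← h1]
    exact congrArg F (Fin.cons_self_tail x).symm
  rw [hF.ident_self x, h2, sub_self, zero_add]

/-- Cohomology vanishes if the hull of each cocycle has a member modular for generators. -/
theorem vanishes_of_modular {S : Set (Alg M)} (hS : Algebra.adjoin ℂ S = ⊤)
    (h : ∀ f : Cochain M (n + 1), (∀ x, hoch f x = 0) →
      ∃ F, InHull f F ∧ ∀ s ∈ S, LeftMod F s) : Vanishes M n := fun f hf => by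
  obtain ⟨F, hF, hmod⟩ := h f hf
  exact exists_primitive hF hS hmod

/-- A functional is normal on bounded sets: it respects bounded weak convergence. -/
def WeaklyCont (φ : Alg M → ℂ) : Prop :=
  ∀ {ι : Type u} (l : Ultrafilter ι) (a : ι → Alg M) (b : Alg M) (C : ℝ), (∀ i, ‖a i‖ ≤ C) →
    TendsW (l : Filter ι) a b → Tendsto (fun i => φ (a i)) l (𝓝 (φ b))

/-- The vector functionals are normal. -/
theorem weaklyCont_vector (ξ η : H) :
    WeaklyCont (M := M) fun a => ⟪ξ, (a : H →L[ℂ] H) η⟫_ℂ :=
  fun _ _ _ _ _ h => h ξ η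

/-- Approximate modularity for finitely many conditions gives exact modularity. -/
theorem exists_modular_of_approx {f : Cochain M (n + 1)} {S : Set (Alg M)} {κ : Type u}
    (φ : κ → Alg M →ₗ[ℂ] ℂ) (hφ : ∀ k, WeaklyCont (φ k))
    (hsep : ∀ a, (∀ k, φ k a = 0) → a = 0)
    (h : ∀ W : Finset S, ∀ P : Finset (κ × Alg M × (Fin n → Alg M)), ∀ ε > (0 : ℝ),
      ∃ F, InHull f F ∧ ∀ s ∈ W, ∀ q ∈ P,
        ‖φ q.1 (F (Fin.cons ((s : Alg M) * q.2.1) q.2.2) -
          (s : Alg M) * F (Fin.cons q.2.1 q.2.2))‖ ≤ ε) :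
    ∃ F, InHull f F ∧ ∀ s ∈ S, LeftMod F s := by
  classical
  let ι := Finset S × Finset (κ × Alg M × (Fin n → Alg M)) × ℕ
  choose G hG hGs using fun i : ι => h i.1 i.2.1 (1 / ((i.2.2 : ℝ) + 1)) Nat.one_div_pos_of_nat
  let U : Ultrafilter ι := Ultrafilter.of atTop
  have hU : (U : Filter ι) ≤ atTop := Ultrafilter.of_le _
  obtain ⟨L, -, hL⟩ := exists_limit U G (norm_nonneg f) fun i => (hG i).norm_le
  refine ⟨L, InHull.limit U hG hL, fun s hs w y => sub_eq_zero.1 (hsep _ fun k => ?_)⟩
  set a : ι → Alg M := fun i => G i (Fin.cons (s * w) y) - s * G i (Fin.cons w y)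
  have hbd : ∀ (v : Fin (n + 1) → Alg M) i, ‖G i v‖ ≤ ‖f‖ * ∏ j, ‖v j‖ := fun v i =>
    (G i).le_of_opNorm_le (hG i).norm_le v
  have h1 : Tendsto (fun i => φ k (a i)) U
      (𝓝 (φ k (L (Fin.cons (s * w) y) - s * L (Fin.cons w y)))) := by
    refine hφ k U a _ (‖f‖ * (∏ j, ‖(Fin.cons (s * w) y : Fin (n + 1) → Alg M) j‖) +
      ‖s‖ * (‖f‖ * ∏ j, ‖(Fin.cons w y : Fin (n + 1) → Alg M) j‖)) (fun i => ?_)
      ((hL _).sub ((hL _).mul_left s))
    exact (norm_sub_le _ _).trans (add_le_add (hbd _ i) ((norm_mul_le _ _).trans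
      (mul_le_mul_of_nonneg_left (hbd _ i) (norm_nonneg _))))
  refine tendsto_nhds_unique h1 (tendsto_zero_iff_norm_tendsto_zero.2 ?_)
  have h0 : Tendsto (fun i : ι => (1 : ℝ) / ((i.2.2 : ℝ) + 1)) atTop (𝓝 0) :=
    tendsto_one_div_add_atTop_nhds_zero_nat.comp (tendsto_atTop_atTop.2 fun b =>
      ⟨(∅, ∅, b), fun i hi => hi.2.2⟩)
  refine squeeze_zero' (Eventually.of_forall fun i => norm_nonneg _) ?_ (h0.mono_left hU)
  filter_upwards [hU (eventually_ge_atTop (({⟨s, hs⟩}, {(k, w, y)}, 0) : ι))] with i hi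
  exact hGs i ⟨s, hs⟩ (hi.1 (Finset.mem_singleton_self _)) (k, w, y)
    (hi.2.1 (Finset.mem_singleton_self _))

end Vale.Agent.P082
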