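import Vale.Agent.P082.Defs
import Vale.Agent.P104.Continuous.Iterate
import Vale.Agent.P104.Distance.Density

/-!
P082: matrix units of every size `2 ^ k` in an algebra without abelian projections, and bounded
approximation of the double commutant on a vector.
-/

namespace Vale.Agent.P082

universe u

variable {H : Type u} [NormedAddCommGroup H] [InnerProductSpace ℂ H] [CompleteSpace H]

/-- An algebra without abelian projections contains unital matrix units of size `2 ^ k`. -/
theorem units_of_noAbelian {A : VonNeumannAlgebra H} (hA : NoAbelianProjection A) (k : ℕ) :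
    Nonempty (Units A (2 ^ k)) := by
  have hc : P104.ContinuousPart A 1 := fun p hp => by rw [hA p hp.1 hp.2.1 hp.2.2, zero_mul]
  obtain ⟨k', hk, p, v, hG⟩ :=
    P104.Continuous.good_base hc (IsStarProjection.one _) (one_mem A) k
  obtain ⟨j, rfl⟩ := Nat.exists_eq_add_of_le hk
  let σ : Fin (2 ^ k) × Fin (2 ^ j) ≃ (Fin (k + j) → Bool) :=
    Fintype.equivOfCardEq (by simp [pow_add])
  refine ⟨{
    e := fun i l => ∑ r, star (v (σ (i, r))) * v (σ (l, r))
    mem := fun i l => sum_mem fun r _ => mul_mem (star_mem (hG.mem _)) (hG.mem _)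
    star_e := fun i l => by simp [star_sum]
    mul_e := fun i a b l => ?_
    sum_e := ?_ }⟩
  · have key : ∀ r s, star (v (σ (i, r))) * v (σ (a, r)) * (star (v (σ (b, s))) * v (σ (l, s))) =
        if a = b ∧ r = s then star (v (σ (i, r))) * v (σ (l, s)) else 0 := fun r s => by
      rw [mul_assoc, ← mul_assoc (v (σ (a, r))), hG.orth]
      simp only [σ.apply_eq_iff_eq, Prod.mk.injEq]
      split_ifs <;> simp [hG.left]
    simp only [Finset.sum_mul, Finset.mul_sum, key]
    split_ifs with hab <;> simp [hab]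
  · rw [← hG.sum, ← σ.sum_comp, Fintype.sum_prod_type]

open P104.Distance in
/-- A selfadjoint contraction of the double commutant is approximated on a vector by
contractions in the norm closure. -/
theorem approx_selfAdjoint (S : StarSubalgebra ℂ (H →L[ℂ] H)) {a : H →L[ℂ] H}
    (ha : a ∈ Set.centralizer (Set.centralizer (S : Set (H →L[ℂ] H)))) (has : IsSelfAdjoint a)
    (ha1 : ‖a‖ ≤ 1) (ζ : H) {ε : ℝ} (hε : 0 < ε) :
    ∃ F ∈ S.topologicalClosure, ‖F‖ ≤ 1 ∧ ‖F ζ - a ζ‖ ≤ ε := by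
  obtain ⟨y, Ry, hys, hyc, hy1, hay⟩ := exists_preimage has ha1
  have hym : y ∈ Set.centralizer (Set.centralizer (S : Set (H →L[ℂ] H))) := fun k hk =>
    (hyc k (ha k hk).symm).eq.symm
  obtain ⟨x, hx, hxs, hxv⟩ := exists_selfAdjoint_approx hym hys
    (WithLp.toLp 2 ![Ry ζ, y (Ry ζ)]) (show (0 : ℝ) < ε / 3 by positivity)
  obtain ⟨Rx, hx1, hcomm, hRxn, hFn, hFm⟩ := transform_spec hx hxs
  set F := (2 : ℝ) • (x * Rx) with hF
  refine ⟨F, hFm, hFn, ?_⟩
  have hid : F - a = (2 : ℝ) • (Rx * (x - y) * Ry) - F * (x - y) * (y * Ry) := by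
    rw [hF, ← hay, ← smul_sub, resolvent_identity hy1 hx1 hcomm, smul_sub, smul_mul_assoc,
      smul_mul_assoc]
  have h1 : ‖x (Ry ζ) - y (Ry ζ)‖ ≤ ε / 3 := hxv 0
  have h2 : ‖x (y (Ry ζ)) - y (y (Ry ζ))‖ ≤ ε / 3 := hxv 1
  rw [← sub_apply, hid]
  show ‖(2 : ℝ) • Rx (x (Ry ζ) - y (Ry ζ)) - F (x (y (Ry ζ)) - y (y (Ry ζ)))‖ ≤ _
  refine (norm_sub_le _ _).trans ?_
  rw [norm_smul, Real.norm_two]
  have h3 := (Rx.le_opNorm (x (Ry ζ) - y (Ry ζ))).trans
    (mul_le_mul hRxn h1 (norm_nonneg _) zero_le_one)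
  have h4 := (F.le_opNorm (x (y (Ry ζ)) - y (y (Ry ζ)))).trans
    (mul_le_mul hFn h2 (norm_nonneg _) zero_le_one)
  linarith

/-- The double commutant is approximated on a vector, with bounded norms, by the closure. -/
theorem approx_vector (S : StarSubalgebra ℂ (H →L[ℂ] H)) {a : H →L[ℂ] H}
    (ha : a ∈ Set.centralizer (Set.centralizer (S : Set (H →L[ℂ] H)))) (ζ : H) {ε : ℝ}
    (hε : 0 < ε) : ∃ F ∈ S.topologicalClosure, ‖F‖ ≤ 2 * ‖a‖ ∧ ‖F ζ - a ζ‖ ≤ ε := by
  set T : StarSubalgebra ℂ (H →L[ℂ] H) :=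
    StarSubalgebra.centralizer ℂ (Set.centralizer (S : Set (H →L[ℂ] H))) with hT
  have hTS : (T : Set (H →L[ℂ] H)) = Set.centralizer (Set.centralizer (S : Set (H →L[ℂ] H))) := by
    have e : star (Set.centralizer (S : Set (H →L[ℂ] H))) = Set.centralizer (S : Set (H →L[ℂ] H)) :=
      Set.ext fun x => ⟨fun hx k hk => by simpa using congrArg star (hx (star k) (star_mem hk)).symm,
        fun hx k hk => by simpa using congrArg star (hx (star k) (star_mem hk)).symm⟩
    rw [hT, StarSubalgebra.coe_centralizer, e, Set.union_self]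
  set r : ℝ := ‖a‖
  set b : H →L[ℂ] H := ((r⁻¹ : ℝ) : ℂ) • a
  have hb : ‖b‖ ≤ 1 := by
    rw [norm_smul, Complex.norm_real, Real.norm_eq_abs, abs_of_nonneg (by positivity)]
    exact inv_mul_le_one
  have hbT : b ∈ T := SMulMemClass.smul_mem _ (show a ∈ T by rw [← SetLike.mem_coe, hTS]; exact ha)
  have hab : a = (r : ℂ) • b := by
    rcases eq_or_ne r 0 with h0 | h0
    · rw [h0, norm_eq_zero.1 h0]; simp
    · rw [smul_smul, ← Complex.ofReal_mul, mul_inv_cancel₀ h0, Complex.ofReal_one, one_smul]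
  have hδ : 0 < ε / (2 * (r + 1)) := by positivity
  obtain ⟨F1, hF1, hF1n, hF1v⟩ := approx_selfAdjoint S (a := (1 / 2 : ℂ) • (b + star b))
    (hTS ▸ SMulMemClass.smul_mem _ (add_mem hbT (star_mem hbT)))
    (by simp [IsSelfAdjoint, star_smul, add_comm])
    (by
      rw [norm_smul]
      refine (mul_le_mul_of_nonneg_left (norm_add_le _ _) (norm_nonneg _)).trans ?_
      rw [norm_star]; norm_num; linarith) ζ hδ
  obtain ⟨F2, hF2, hF2n, hF2v⟩ := approx_selfAdjoint S (a := (Complex.I / 2) • (star b - b))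
    (hTS ▸ SMulMemClass.smul_mem _ (sub_mem (star_mem hbT) hbT))
    (by
      simp only [IsSelfAdjoint, star_smul, star_sub, star_star, RCLike.star_def, map_div₀,
        Complex.conj_I, map_ofNat]
      rw [neg_div, neg_smul, ← smul_neg, neg_sub])
    (by
      rw [norm_smul]
      refine (mul_le_mul_of_nonneg_left (norm_sub_le _ _) (norm_nonneg _)).trans ?_
      rw [norm_star, norm_div, Complex.norm_I]; norm_num; linarith) ζ hδ
  have hr : (0 : ℝ) ≤ r := norm_nonneg a
  refine ⟨(r : ℂ) • (F1 + Complex.I • F2),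
    SMulMemClass.smul_mem _ (add_mem hF1 (SMulMemClass.smul_mem _ hF2)), ?_, ?_⟩
  · rw [norm_smul, Complex.norm_real, Real.norm_eq_abs, abs_of_nonneg hr, mul_comm]
    refine mul_le_mul_of_nonneg_right ((norm_add_le _ _).trans ?_) hr
    rw [norm_smul, Complex.norm_I]
    linarith
  · have e : b = (1 / 2 : ℂ) • (b + star b) + Complex.I • ((Complex.I / 2) • (star b - b)) := by
      simp only [smul_smul, mul_div_assoc', Complex.I_mul_I]
      module
    generalize (1 / 2 : ℂ) • (b + star b) = c1 at e hF1v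
    generalize (Complex.I / 2) • (star b - b) = c2 at e hF2v
    rw [hab, e]
    show ‖(r : ℂ) • (F1 ζ + Complex.I • F2 ζ) - (r : ℂ) • (c1 ζ + Complex.I • c2 ζ)‖ ≤ ε
    rw [← smul_sub, norm_smul, Complex.norm_real, Real.norm_eq_abs, abs_of_nonneg hr,
      add_sub_add_comm, ← smul_sub]
    refine (mul_le_mul_of_nonneg_left ((norm_add_le _ _).trans (add_le_add hF1v ?_)) hr).trans
      (b := r * (ε / (2 * (r + 1)) + ε / (2 * (r + 1)))) ?_
    · rwa [norm_smul, Complex.norm_I, one_mul]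
    · have : r * (ε / (2 * (r + 1)) + ε / (2 * (r + 1))) = ε * (r / (r + 1)) := by field_simp; ring
      rw [this]
      exact mul_le_of_le_one_right hε.le ((div_le_one (by positivity)).2 (by linarith))

end Vale.Agent.P082
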