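import Mathlib

/-!
P082: the little Grothendieck inequality for a bounded linear map from a C*-algebra into a
Hilbert space, with constant `3`, by random signs and clipping.
-/

open Finset

namespace Vale.Agent.P082.LittleG

variable {n : ℕ}

/-- The sign of the `i`-th bit. -/
def sgn (ω : Fin n → Bool) (i : Fin n) : ℂ := if ω i then 1 else -1

@[simp] theorem star_sgn (ω : Fin n → Bool) (i : Fin n) : star (sgn ω i) = sgn ω i := by
  unfold sgn; split <;> simp

theorem sgn_mul_self (ω : Fin n → Bool) (i : Fin n) : sgn ω i * sgn ω i = 1 := by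
  unfold sgn; split <;> simp

/-- A function negated by flipping one bit has sum zero. -/
theorem sum_eq_zero_of_flip (i : Fin n) (f : (Fin n → Bool) → ℂ)
    (h : ∀ ω, f (Function.update ω i (!ω i)) = -f ω) : ∑ ω, f ω = 0 := by
  have hinv : Function.Involutive (fun ω : Fin n → Bool => Function.update ω i (!ω i)) := fun ω => by
    simp
  have h2 := Equiv.sum_comp hinv.toPerm f
  simp only [Function.Involutive.coe_toPerm, h, Finset.sum_neg_distrib] at h2
  exact neg_eq_self.1 h2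

theorem sgn_flip_self (ω : Fin n → Bool) (i : Fin n) :
    sgn (Function.update ω i (!ω i)) i = -sgn ω i := by
  cases h : ω i <;> simp [sgn, h]

theorem sgn_flip_ne (ω : Fin n → Bool) {i j : Fin n} (h : j ≠ i) :
    sgn (Function.update ω i (!ω i)) j = sgn ω j := by
  simp [sgn, h]

theorem sum_sgn_mul (i j : Fin n) :
    ∑ ω : Fin n → Bool, sgn ω i * sgn ω j = if i = j then (2 : ℂ) ^ n else 0 := by
  rcases eq_or_ne i j with rfl | h
  · simp [sgn_mul_self]
  · rw [if_neg h]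
    exact sum_eq_zero_of_flip i _ fun ω => by simp [sgn_flip_self, sgn_flip_ne ω h.symm]

/-- Products of two distinct signs, as an orthogonal family. -/
def sgn₂ (ω : Fin n → Bool) (p : {p : Fin n × Fin n // p.1 < p.2}) : ℂ :=
  sgn ω p.1.1 * sgn ω p.1.2

theorem star_sgn₂ (ω : Fin n → Bool) (p) : star (sgn₂ (n := n) ω p) = sgn₂ ω p := by
  simp [sgn₂, star_mul']

theorem sum_sgn₂_mul (p q : {p : Fin n × Fin n // p.1 < p.2}) :
    ∑ ω : Fin n → Bool, sgn₂ ω p * sgn₂ ω q = if p = q then (2 : ℂ) ^ n else 0 := by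
  obtain ⟨⟨i, j⟩, hij⟩ := p
  obtain ⟨⟨k, l⟩, hkl⟩ := q
  simp only [sgn₂, Subtype.mk.injEq, Prod.mk.injEq]
  dsimp only at hij hkl
  rcases lt_trichotomy i k with h | rfl | h
  · rw [if_neg fun e => h.ne e.1]
    exact sum_eq_zero_of_flip i _ fun ω => by
      simp [sgn_flip_self, sgn_flip_ne ω hij.ne', sgn_flip_ne ω h.ne',
        sgn_flip_ne ω (h.trans hkl).ne']
  · rcases eq_or_ne j l with rfl | h
    · simp [mul_mul_mul_comm, sgn_mul_self]
    · rw [if_neg fun e => h e.2]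
      exact sum_eq_zero_of_flip j _ fun ω => by
        simp [sgn_flip_self, sgn_flip_ne ω hij.ne, sgn_flip_ne ω h.symm]
  · rw [if_neg fun e => h.ne e.1.symm]
    exact sum_eq_zero_of_flip k _ fun ω => by
      simp [sgn_flip_self, sgn_flip_ne ω hkl.ne', sgn_flip_ne ω h.ne',
        sgn_flip_ne ω (h.trans hij).ne']

theorem sum_sgn₂ (p : {p : Fin n × Fin n // p.1 < p.2}) :
    ∑ ω : Fin n → Bool, sgn₂ ω p = 0 :=
  sum_eq_zero_of_flip p.1.1 _ fun ω => by
    simp [sgn₂, sgn_flip_self, sgn_flip_ne ω p.2.ne']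

section Module

variable {A : Type*} [CStarAlgebra A]
variable {ι Ω : Type*} [Fintype ι] [DecidableEq ι] [Fintype Ω]

theorem orth_sum (e : Ω → ι → ℂ) {N : ℂ} (he : ∀ ω i, star (e ω i) = e ω i)
    (ho : ∀ i j, ∑ ω, e ω i * e ω j = if i = j then N else 0) (a : ι → A) :
    ∑ ω, star (∑ i, e ω i • a i) * (∑ i, e ω i • a i) = N • ∑ i, star (a i) * a i := by
  simp only [star_sum, star_smul, he, sum_mul, mul_sum, smul_mul_assoc, mul_smul_comm,
    smul_smul, smul_sum]
  rw [sum_comm]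
  refine sum_congr rfl fun i _ => ?_
  rw [sum_comm]
  simp only [← Finset.sum_smul, ho, ite_smul, zero_smul, Finset.sum_ite_eq,
    mem_univ, if_true]

variable [PartialOrder A] [StarOrderedRing A]

/-- Bessel's inequality in `A`. -/
theorem bessel (e : Ω → ι → ℂ) {N : ℝ} (hN : 0 < N) (he : ∀ ω i, star (e ω i) = e ω i)
    (ho : ∀ i j, ∑ ω, e ω i * e ω j = if i = j then (N : ℂ) else 0) (v : Ω → A) :
    ∑ i, star (∑ ω, e ω i • v ω) * (∑ ω, e ω i • v ω) ≤ N • ∑ ω, star (v ω) * v ω := by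
  set D : ι → A := fun i => ∑ ω, e ω i • v ω with hD
  have h0 : 0 ≤ ∑ ω, star ((N : ℂ) • v ω - ∑ i, e ω i • D i) *
      ((N : ℂ) • v ω - ∑ i, e ω i • D i) :=
    sum_nonneg fun ω _ => star_mul_self_nonneg _
  have hc : ∑ ω, star (v ω) * ∑ i, e ω i • D i = ∑ i, star (D i) * D i := by
    simp only [hD, mul_sum, mul_smul_comm, star_sum, star_smul, he, sum_mul, smul_mul_assoc]
    rw [sum_comm]
    refine sum_congr rfl fun i _ => ?_
    simp only [smul_sum, smul_smul]
    rw [sum_comm]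
    simp only [mul_comm]
  have hc' : ∑ ω, star (∑ i, e ω i • D i) * v ω = ∑ i, star (D i) * D i := by
    simpa [star_sum] using congrArg star hc
  have key : ∑ ω, star ((N : ℂ) • v ω - ∑ i, e ω i • D i) *
      ((N : ℂ) • v ω - ∑ i, e ω i • D i) =
      (N : ℂ) • ((N : ℂ) • ∑ ω, star (v ω) * v ω - ∑ i, star (D i) * D i) := by
    simp only [star_sub, star_smul, RCLike.star_def, Complex.conj_ofReal, sub_mul, mul_sub,
      sum_sub_distrib, smul_mul_assoc, mul_smul_comm, ← smul_sum, hc, hc', orth_sum e he ho]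
    module
  rw [key, Complex.coe_smul, Complex.coe_smul] at h0
  have h1 := smul_nonneg (inv_nonneg.2 hN.le) h0
  rw [smul_smul, inv_mul_cancel₀ hN.ne', one_smul] at h1
  exact sub_nonneg.1 h1

theorem bessel_vec {E : Type*} [SeminormedAddCommGroup E] [InnerProductSpace ℂ E] (e : Ω → ι → ℂ)
    {N : ℝ} (hN : 0 < N) (he : ∀ ω i, star (e ω i) = e ω i)
    (ho : ∀ i j, ∑ ω, e ω i * e ω j = if i = j then (N : ℂ) else 0) (v : Ω → E) :
    ∑ i, ‖∑ ω, e ω i • v ω‖ ^ 2 ≤ N * ∑ ω, ‖v ω‖ ^ 2 := by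
  set D : ι → E := fun i => ∑ ω, e ω i • v ω with hD
  have hconj : ∀ ω i, (starRingEnd ℂ) (e ω i) = e ω i := he
  have h0 : 0 ≤ ∑ ω, ‖(N : ℂ) • v ω - ∑ i, e ω i • D i‖ ^ 2 := sum_nonneg fun ω _ => sq_nonneg _
  have hc : ∑ ω, RCLike.re (inner ℂ (v ω) (∑ i, e ω i • D i)) = ∑ i, ‖D i‖ ^ 2 := by
    rw [← map_sum]
    have : ∑ ω, inner ℂ (v ω) (∑ i, e ω i • D i) = ∑ i, inner ℂ (D i) (D i) := by
      simp only [hD, inner_sum, inner_smul_right, sum_inner, inner_smul_left, hconj]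
      rw [sum_comm]
      refine sum_congr rfl fun i _ => ?_
      simp only [mul_sum]
      rw [sum_comm]
      simp only [mul_left_comm]
    rw [this, map_sum]
    exact sum_congr rfl fun i _ => (norm_sq_eq_re_inner (𝕜 := ℂ) _).symm
  have hq : ∑ ω, ‖∑ i, e ω i • D i‖ ^ 2 = N * ∑ i, ‖D i‖ ^ 2 := by
    simp only [norm_sq_eq_re_inner (𝕜 := ℂ), ← map_sum, inner_sum, sum_inner, inner_smul_right,
      inner_smul_left, hconj]
    rw [sum_comm]
    simp only [sum_comm (s := (univ : Finset Ω)), ← mul_assoc, ← sum_mul, ho, ite_mul, zero_mul,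
      sum_ite_eq, mem_univ, if_true, map_sum, mul_sum]
    simp
  have key : ∑ ω, ‖(N : ℂ) • v ω - ∑ i, e ω i • D i‖ ^ 2 =
      N * (N * ∑ ω, ‖v ω‖ ^ 2) - 2 * N * ∑ i, ‖D i‖ ^ 2 + N * ∑ i, ‖D i‖ ^ 2 := by
    rw [← hq, ← hc]
    simp only [mul_sum, ← sum_sub_distrib, ← sum_add_distrib]
    refine sum_congr rfl fun ω _ => ?_
    rw [norm_sub_sq (𝕜 := ℂ), norm_smul, inner_smul_left, Complex.norm_real, Real.norm_eq_abs,
      Complex.conj_ofReal, mul_pow, sq_abs]
    simp only [RCLike.re_to_complex, Complex.re_ofReal_mul]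
    ring
  nlinarith

end Module

theorem abs_sub_clip_le {t : ℝ} (ht : 0 < t) (s : ℝ) :
    |s - max (-t) (min s t)| * (4 * t) ≤ s ^ 2 := by
  rcases le_or_gt s (-t) with h | h
  · rw [min_eq_left (by linarith), max_eq_left h, abs_of_nonpos (by linarith)]
    nlinarith [sq_nonneg (s + 2 * t)]
  · rcases le_or_gt s t with h' | h'
    · rw [min_eq_left h', max_eq_right h.le, sub_self, abs_zero, zero_mul]
      positivity
    · rw [min_eq_right h'.le, max_eq_right (by linarith), abs_of_nonneg (by linarith)]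
      nlinarith [sq_nonneg (s - 2 * t)]

section Main

variable {A : Type*} [CStarAlgebra A] [PartialOrder A] [StarOrderedRing A]
variable {E : Type*} [SeminormedAddCommGroup E] [InnerProductSpace ℂ E]

/-- The fourth moment of a signed sum of selfadjoint elements. -/
theorem moment_four (x : Fin n → A) (hx : ∀ i, IsSelfAdjoint (x i)) (h1 : ∑ i, x i * x i ≤ 1) :
    ∑ ω : Fin n → Bool, (∑ i, sgn ω i • x i) ^ 4 ≤ (3 * 2 ^ n : ℝ) • (1 : A) := by
  have hxs : ∀ i, star (x i) = x i := hx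
  set P := ∑ i, x i * x i with hP
  have hP0 : 0 ≤ P := sum_nonneg fun i _ => by
    conv_rhs => rw [← show star (x i) * x i = x i * x i by rw [hxs i]]
    exact star_mul_self_nonneg _
  let c : {p : Fin n × Fin n // p.1 < p.2} → A := fun p =>
    x p.1.1 * x p.1.2 + x p.1.2 * x p.1.1
  let R : (Fin n → Bool) → A := fun ω => ∑ p, sgn₂ ω p • c p
  have hRs : ∀ ω, star (R ω) = R ω := fun ω => by
    simp [R, c, star_sum, star_smul, star_sgn₂, hxs, add_comm]
  have hsq : ∀ ω, (∑ i, sgn ω i • x i) ^ 2 = P + R ω := fun ω => by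
    let g : Fin n × Fin n → A := fun q => (sgn ω q.1 * sgn ω q.2) • (x q.1 * x q.2)
    have hR : ∑ q ∈ univ.filter (fun q : Fin n × Fin n => q.1 < q.2), g q +
        ∑ q ∈ univ.filter (fun q : Fin n × Fin n => q.2 < q.1), g q = R ω := by
      rw [sum_equiv (Equiv.prodComm (Fin n) (Fin n))
          (s := univ.filter (fun q : Fin n × Fin n => q.2 < q.1))
          (t := univ.filter (fun q : Fin n × Fin n => q.1 < q.2)) (f := g)
          (g := fun q : Fin n × Fin n => g q.swap) (fun q => by simp) (fun q _ => by simp),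
        ← sum_add_distrib]
      refine (sum_subtype _ (by simp) _).trans (sum_congr rfl fun p _ => ?_)
      simp [g, c, sgn₂, smul_add, mul_comm]
    have hD : ∑ q ∈ univ.filter (fun q : Fin n × Fin n => q.1 = q.2), g q = P := by
      refine (sum_nbij' (fun q => q.1) (fun i => (i, i)) (by simp) (by simp) ?_ (by simp) ?_)
      · intro q hq; simp only [mem_filter, mem_univ, true_and] at hq; ext <;> simp [hq]
      · intro q hq
        simp only [mem_filter, mem_univ, true_and] at hq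
        simp [g, hq, sgn_mul_self]
    have hsplit : ∑ q, g q = P + R ω := by
      rw [← hD, ← hR, sum_filter, sum_filter, sum_filter, ← sum_add_distrib, ← sum_add_distrib]
      refine sum_congr rfl fun q _ => ?_
      rcases lt_trichotomy q.1 q.2 with h | h | h <;>
        simp [h, ne_of_lt, ne_of_gt, not_lt_of_gt]
    rw [← hsplit, Fintype.sum_prod_type, pow_two, sum_mul]
    simp [g, mul_sum, smul_smul, mul_comm]
  have hR0 : ∑ ω : Fin n → Bool, R ω = 0 := by
    rw [sum_comm]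
    simp [← Finset.sum_smul, sum_sgn₂]
  have hexp : ∑ ω : Fin n → Bool, (∑ i, sgn ω i • x i) ^ 4 =
      (2 ^ n : ℝ) • (P * P) + ∑ ω : Fin n → Bool, R ω * R ω := by
    have e : ∀ ω, (∑ i, sgn ω i • x i) ^ 4 = P * P + (P * R ω + (R ω * P + R ω * R ω)) := fun ω => by
      rw [show 4 = 2 * 2 from rfl, pow_mul, hsq, pow_two]
      simp only [add_mul, mul_add]
      abel
    simp only [e, sum_add_distrib, ← mul_sum, ← sum_mul]
    simp only [hR0, mul_zero, zero_mul, zero_add, sum_const, card_univ, Fintype.card_fun,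
      Fintype.card_bool, Fintype.card_fin]
    rw [← Nat.cast_smul_eq_nsmul ℝ]
    norm_num
  have hPP : P * P ≤ 1 := by
    have hPn : ‖P‖ ≤ 1 := (CStarAlgebra.norm_le_one_iff_of_nonneg P hP0).2 h1
    refine (CStarAlgebra.norm_le_one_iff_of_nonneg _ ?_).1
      ((norm_mul_le _ _).trans (mul_le_one₀ hPn (norm_nonneg _) hPn))
    conv_rhs => arg 1; rw [← (IsSelfAdjoint.of_nonneg hP0).star_eq]
    exact star_mul_self_nonneg P
  have hcc : ∑ p, star (c p) * c p ≤ (2 : ℝ) • (1 : A) := by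
    let G : Fin n × Fin n → A := fun q => star (x q.1 * x q.2) * (x q.1 * x q.2)
    have hpair : ∀ p, star (c p) * c p ≤ (2 : ℝ) • (G p.1 + G p.1.swap) := fun p => by
      rw [← sub_nonneg]
      convert star_mul_self_nonneg (x p.1.1 * x p.1.2 - x p.1.2 * x p.1.1) using 1
      simp only [G, c, Prod.fst_swap, Prod.snd_swap, star_sub, star_add, star_mul, hxs, two_smul,
        sub_mul, mul_sub, add_mul, mul_add]
      abel
    have hG : ∑ p : {p : Fin n × Fin n // p.1 < p.2}, (G p.1 + G p.1.swap) ≤ 1 :=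
      calc _ = ∑ q ∈ univ.filter (fun q : Fin n × Fin n => q.1 < q.2), (G q + G q.swap) :=
            (sum_subtype _ (by simp) fun q => G q + G q.swap).symm
        _ ≤ ∑ q, G q := by
          rw [sum_add_distrib, sum_equiv (Equiv.prodComm (Fin n) (Fin n))
            (t := univ.filter (fun q : Fin n × Fin n => q.2 < q.1)) (g := G)
            (f := fun q => G q.swap) (fun q => by simp) (fun q _ => by simp),
            ← sum_union (disjoint_filter.2 fun q _ h => not_lt_of_gt h)]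
          exact sum_le_univ_sum_of_nonneg fun q => star_mul_self_nonneg _
        _ = ∑ j, star (x j) * P * x j := by
          rw [Fintype.sum_prod_type, sum_comm]
          simp [G, hP, hxs, mul_sum, sum_mul, mul_assoc]
        _ ≤ ∑ j, star (x j) * 1 * x j :=
          sum_le_sum fun j _ => star_left_conjugate_le_conjugate h1 _
        _ ≤ 1 := by simpa [hxs, hP] using h1
    refine (sum_le_sum fun p _ => hpair p).trans ?_
    rw [← smul_sum]
    exact smul_le_smul_of_nonneg_left hG two_pos.le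
  have hRR : ∑ ω : Fin n → Bool, R ω * R ω ≤ (2 ^ n : ℝ) • ((2 : ℝ) • (1 : A)) := by
    conv_lhs => arg 2; ext ω; arg 1; rw [← hRs ω]
    rw [orth_sum (fun ω p => sgn₂ ω p) star_sgn₂ sum_sgn₂_mul,
      show (2 : ℂ) ^ n = (((2 : ℝ) ^ n : ℝ) : ℂ) by norm_num, Complex.coe_smul]
    exact smul_le_smul_of_nonneg_left hcc (by positivity)
  rw [hexp]
  refine (add_le_add (smul_le_smul_of_nonneg_left hPP (by positivity)) hRR).trans_eq ?_
  module

omit [PartialOrder A] [StarOrderedRing A] in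
theorem sum_sgn_signed (x : Fin n → A) (i : Fin n) :
    ∑ ω : Fin n → Bool, sgn ω i • ∑ j, sgn ω j • x j = ((2 : ℂ) ^ n) • x i := by
  simp only [smul_sum, smul_smul]
  rw [sum_comm]
  simp [← Finset.sum_smul, sum_sgn_mul, ite_smul]

/-- One clipping step. -/
theorem step (h : A →L[ℂ] E) (x : Fin n → A) (hx : ∀ i, IsSelfAdjoint (x i))
    (h1 : ∑ i, x i * x i ≤ 1) :
    ∃ D : Fin n → A, (∀ i, IsSelfAdjoint (D i)) ∧ ∑ i, D i * D i ≤ 1 ∧
      √(∑ i, ‖h (x i)‖ ^ 2) ≤ ‖h‖ * (√3 / 2) + √(∑ i, ‖h (D i)‖ ^ 2) / 2 := by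
  have hN : (0 : ℝ) < 2 ^ n := by positivity
  set t : ℝ := √3 / 2 with ht
  have ht0 : 0 < t := by positivity
  let S : (Fin n → Bool) → A := fun ω => ∑ i, sgn ω i • x i
  let c : ℝ → ℝ := fun s => max (-t) (min s t)
  have hcc : Continuous c := by fun_prop
  have hS : ∀ ω, IsSelfAdjoint (S ω) := fun ω => by
    simp [IsSelfAdjoint, S, star_sum, star_smul, fun i => (hx i).star_eq]
  let C : (Fin n → Bool) → A := fun ω => cfc c (S ω)
  let G : (Fin n → Bool) → A := fun ω => cfc (fun s => s - c s) (S ω)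
  have hG : ∀ ω, G ω = S ω - C ω := fun ω => by
    show cfc (fun s => s - c s) (S ω) = _
    rw [cfc_sub (fun s : ℝ => s) c (S ω), cfc_id' ℝ (S ω) (hS ω)]
  have hG2 : ∀ ω, star (G ω) * G ω ≤ (1 / (4 * t) ^ 2) • S ω ^ 4 := fun ω => by
    rw [show star (G ω) = G ω from (cfc_predicate _ _ : IsSelfAdjoint (G ω)),
      ← cfc_mul (fun s => s - c s) (fun s => s - c s) (S ω),
      ← cfc_pow_id (R := ℝ) (S ω) 4 (hS ω), ← cfc_smul (1 / (4 * t) ^ 2) (fun s : ℝ => s ^ 4) (S ω)]
    refine cfc_mono fun s _ => ?_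
    show (s - c s) * (s - c s) ≤ 1 / (4 * t) ^ 2 * s ^ 4
    rw [one_div_mul_eq_div, le_div_iff₀ (by positivity)]
    calc (s - c s) * (s - c s) * (4 * t) ^ 2 = (|s - c s| * (4 * t)) ^ 2 := by
          rw [mul_pow |s - c s|, sq_abs, pow_two (s - c s)]
      _ ≤ (s ^ 2) ^ 2 := pow_le_pow_left₀ (by positivity) (abs_sub_clip_le ht0 s) 2
      _ = s ^ 4 := by ring
  have ho : ∀ i j : Fin n, ∑ ω : Fin n → Bool, sgn ω i * sgn ω j =
      if i = j then (((2 : ℝ) ^ n : ℝ) : ℂ) else 0 := fun i j => by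
    rw [sum_sgn_mul]; norm_num
  refine ⟨fun i => ((2 : ℝ) * (2 ^ n)⁻¹) • ∑ ω : Fin n → Bool, sgn ω i • G ω,
    fun i => ?_, ?_, ?_⟩
  · refine (IsSelfAdjoint.all _).smul (show IsSelfAdjoint (∑ ω : Fin n → Bool, sgn ω i • G ω) from ?_)
    have hGs : ∀ ω, star (G ω) = G ω := fun ω => (cfc_predicate _ _ : IsSelfAdjoint (G ω))
    simp only [IsSelfAdjoint, star_sum, star_smul, star_sgn, hGs]
  · have hb := (bessel (fun ω i => sgn ω i) hN star_sgn ho G).trans
      (smul_le_smul_of_nonneg_left (sum_le_sum fun ω _ => hG2 ω) hN.le)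
    rw [← smul_sum] at hb
    have h5 := hb.trans (smul_le_smul_of_nonneg_left (smul_le_smul_of_nonneg_left
      (moment_four x hx h1) (by positivity)) hN.le)
    have hGs : ∀ ω, star (G ω) = G ω := fun ω => (cfc_predicate _ _ : IsSelfAdjoint (G ω))
    have hs : ∀ i, star (∑ ω : Fin n → Bool, sgn ω i • G ω) = ∑ ω : Fin n → Bool, sgn ω i • G ω :=
      fun i => by
      simp only [star_sum, star_smul, star_sgn, hGs]
    simp only [hs, smul_smul] at h5
    simp only [smul_mul_smul_comm, ← smul_sum]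
    refine (smul_le_smul_of_nonneg_left h5 (by positivity)).trans_eq ?_
    rw [smul_smul]
    convert one_smul ℝ (1 : A) using 2
    rw [ht]
    field_simp
    rw [Real.sq_sqrt (by norm_num)]
    ring
  · let N : ℂ := (((2 : ℝ) ^ n : ℝ) : ℂ)
    have hxi : ∀ i, N • h (x i) = (∑ ω : Fin n → Bool, sgn ω i • h (C ω)) +
        ∑ ω : Fin n → Bool, sgn ω i • h (G ω) := fun i => by
      have : N • x i = ∑ ω : Fin n → Bool, sgn ω i • (C ω + G ω) := by
        simp only [hG, add_sub_cancel]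
        rw [sum_sgn_signed]
        simp [N]
      rw [← map_smul, this]
      simp [map_sum, smul_add, sum_add_distrib]
    let u : PiLp 2 (fun _ : Fin n => E) :=
      WithLp.toLp 2 fun i => ∑ ω : Fin n → Bool, sgn ω i • h (C ω)
    let v : PiLp 2 (fun _ : Fin n => E) :=
      WithLp.toLp 2 fun i => ∑ ω : Fin n → Bool, sgn ω i • h (G ω)
    let w : PiLp 2 (fun _ : Fin n => E) := WithLp.toLp 2 fun i => h (x i)
    have hw : N • w = u + v := PiLp.ext fun i => hxi i
    have hnw : (2 : ℝ) ^ n * ‖w‖ ≤ ‖u‖ + ‖v‖ := by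
      calc _ = ‖N • w‖ := by
            rw [norm_smul, Complex.norm_real, Real.norm_eq_abs, abs_of_pos hN]
        _ ≤ _ := hw ▸ norm_add_le u v
    have hu : ‖u‖ ≤ (2 : ℝ) ^ n * (‖h‖ * t) := by
      rw [PiLp.norm_eq_of_L2, Real.sqrt_le_left (by positivity)]
      refine (bessel_vec (fun ω i => sgn ω i) hN star_sgn ho fun ω => h (C ω)).trans ?_
      have hC : ∀ ω, ‖h (C ω)‖ ≤ ‖h‖ * t := fun ω => h.le_opNorm_of_le
        (norm_cfc_le ht0.le fun s _ => abs_le.2
          ⟨le_max_left _ _, max_le (by linarith) (min_le_right _ _)⟩)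
      calc _ ≤ (2 : ℝ) ^ n * ∑ _ω : Fin n → Bool, (‖h‖ * t) ^ 2 := by
            gcongr with ω; exact hC ω
        _ = _ := by simp; ring
    have hv : ‖v‖ = (2 : ℝ) ^ n * (√(∑ i,
        ‖h (((2 : ℝ) * (2 ^ n)⁻¹) • ∑ ω : Fin n → Bool, sgn ω i • G ω)‖ ^ 2) / 2) := by
      rw [PiLp.norm_eq_of_L2]
      simp only [ContinuousLinearMap.map_smul_of_tower, map_sum, map_smul, norm_smul,
        Real.norm_eq_abs, abs_of_nonneg (show (0 : ℝ) ≤ 2 * (2 ^ n)⁻¹ by positivity), mul_pow,
        ← mul_sum, v]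
      rw [Real.sqrt_mul (by positivity), ← mul_pow, Real.sqrt_sq (by positivity)]
      field_simp
    have := hnw.trans (add_le_add hu hv.le)
    rw [← mul_add] at this
    have h2 := le_of_mul_le_mul_left this hN
    rwa [PiLp.norm_eq_of_L2] at h2

/-- The inequality for selfadjoint elements. -/
theorem le_of_selfAdjoint (h : A →L[ℂ] E) (x : Fin n → A) (hx : ∀ i, IsSelfAdjoint (x i))
    (h1 : ∑ i, x i * x i ≤ 1) : ∑ i, ‖h (x i)‖ ^ 2 ≤ 3 * ‖h‖ ^ 2 := by
  have key : ∀ m : ℕ, ∀ x : Fin n → A, (∀ i, IsSelfAdjoint (x i)) → ∑ i, x i * x i ≤ 1 →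
      √(∑ i, ‖h (x i)‖ ^ 2) ≤ ‖h‖ * √3 + (1 / 2) ^ m * (‖h‖ * √n) := fun m => by
    induction m with
    | zero =>
      intro x hx h1
      rw [pow_zero, one_mul]
      refine le_add_of_nonneg_of_le (by positivity) (Real.sqrt_le_iff.2 ⟨by positivity, ?_⟩)
      have hb : ∀ i, ‖h (x i)‖ ≤ ‖h‖ * 1 := fun i => h.le_opNorm_of_le <| by
        have hn : ∀ j, 0 ≤ x j * x j := fun j => by
          conv_rhs => arg 1; rw [← (hx j).star_eq]
          exact star_mul_self_nonneg _
        have h2 := (CStarAlgebra.norm_le_one_iff_of_nonneg _ (hn i)).2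
          ((single_le_sum (fun j _ => hn j) (mem_univ i)).trans h1)
        rw [(hx i).norm_mul_self] at h2
        nlinarith [norm_nonneg (x i)]
      calc _ ≤ ∑ _i : Fin n, (‖h‖ * 1) ^ 2 := by gcongr with i; exact hb i
        _ = _ := by simp [mul_pow]; ring
    | succ m ih =>
      intro x hx h1
      obtain ⟨D, hD, hD1, hle⟩ := step h x hx h1
      have := ih D hD hD1
      rw [pow_succ]
      linarith
  have hlim : √(∑ i, ‖h (x i)‖ ^ 2) ≤ ‖h‖ * √3 + 0 := by
    refine ge_of_tendsto' (x := Filter.atTop) (Filter.Tendsto.const_add _ ?_) fun m => key m x hx h1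
    simpa using (tendsto_pow_atTop_nhds_zero_of_lt_one (by norm_num : (0 : ℝ) ≤ 1 / 2)
      (by norm_num)).mul_const (‖h‖ * √n)
  rw [add_zero, Real.sqrt_le_iff] at hlim
  refine hlim.2.trans_eq ?_
  rw [mul_pow, Real.sq_sqrt (by norm_num)]
  ring

end Main

/-- The little Grothendieck inequality. -/
theorem little_grothendieck {A : Type*} [CStarAlgebra A] {E : Type*} [SeminormedAddCommGroup E]
    [InnerProductSpace ℂ E] {ι : Type*} [Fintype ι] (h : A →L[ℂ] E) (y : ι → A) :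
    ∑ i, ‖h (y i)‖ ^ 2 ≤
      3 * ‖h‖ ^ 2 * (‖∑ i, star (y i) * y i‖ + ‖∑ i, y i * star (y i)‖) := by
  let _ := CStarAlgebra.spectralOrder A
  let _ := CStarAlgebra.spectralOrderedRing A
  set T := ∑ i, star (y i) * y i
  set T' := ∑ i, y i * star (y i)
  refine le_of_forall_pos_le_add fun δ hδ => ?_
  set ε : ℝ := δ / (3 * ‖h‖ ^ 2 + 1)
  have hε : 0 < ε := by positivity
  set r : ℝ := (‖T‖ + ‖T'‖ + ε) / 2 with hr
  have hr0 : 0 < r := by positivity
  let a : ι → A := fun i => (1 / 2 : ℂ) • (y i + star (y i))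
  let b : ι → A := fun i => (Complex.I / 2) • (star (y i) - y i)
  have ha : ∀ i, IsSelfAdjoint (a i) := fun i => by
    simp [IsSelfAdjoint, a, star_smul, add_comm]
  have hb : ∀ i, IsSelfAdjoint (b i) := fun i => by
    simp only [IsSelfAdjoint, b, star_smul, star_sub, star_star, RCLike.star_def, map_div₀,
      Complex.conj_I, map_ofNat]
    rw [neg_div, neg_smul, ← smul_neg, neg_sub]
  have hab : ∀ i, y i = a i + Complex.I • b i := fun i => by
    simp only [a, b, smul_smul, mul_div_assoc', Complex.I_mul_I]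
    module
  have hsq : ∑ i, (a i * a i + b i * b i) = (1 / 2 : ℂ) • (T + T') := by
    simp only [T, T', smul_sum, ← sum_add_distrib]
    refine sum_congr rfl fun i _ => ?_
    simp only [a, b, smul_mul_smul_comm, show Complex.I / 2 * (Complex.I / 2) = -(1 / 4 : ℂ) by
      rw [div_mul_div_comm, Complex.I_mul_I]; norm_num, show (1 / 2 : ℂ) * (1 / 2) = 1 / 4 by
      norm_num, add_mul, mul_add, sub_mul, mul_sub]
    module
  let z : ι ⊕ ι → A := Sum.elim a b
  let e := (Fintype.equivFin (ι ⊕ ι)).symm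
  let x : Fin (Fintype.card (ι ⊕ ι)) → A := fun k => (√r)⁻¹ • z (e k)
  have hx1 : ∑ k, x k * x k ≤ 1 := by
    have : ∑ k, x k * x k = r⁻¹ • ∑ i, (a i * a i + b i * b i) := by
      simp only [x, smul_mul_smul_comm, ← smul_sum]
      rw [e.sum_comp (fun q => z q * z q), Fintype.sum_sum_type, ← sum_add_distrib,
        ← mul_inv, Real.mul_self_sqrt hr0.le]
      rfl
    rw [this, hsq]
    have hn : 0 ≤ r⁻¹ • ((1 / 2 : ℂ) • (T + T')) := by
      rw [show (1 / 2 : ℂ) = ((1 / 2 : ℝ) : ℂ) by norm_num, Complex.coe_smul]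
      exact smul_nonneg (by positivity) (smul_nonneg (by norm_num)
        (add_nonneg (sum_nonneg fun i _ => star_mul_self_nonneg _)
          (sum_nonneg fun i _ => mul_star_self_nonneg _)))
    refine (CStarAlgebra.norm_le_one_iff_of_nonneg _ hn).1 ?_
    rw [norm_smul, norm_smul, Real.norm_eq_abs, abs_of_pos (inv_pos.2 hr0), inv_mul_le_one₀ hr0]
    norm_num
    linarith [norm_add_le T T']
  have hmain := le_of_selfAdjoint h x
    (fun k => (IsSelfAdjoint.all _).smul ((Sum.forall.2 ⟨ha, hb⟩ : ∀ q, IsSelfAdjoint (z q)) (e k))) hx1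
  simp only [x, ContinuousLinearMap.map_smul_of_tower, norm_smul, mul_pow, ← mul_sum,
    Real.norm_eq_abs, sq_abs, inv_pow, Real.sq_sqrt hr0.le] at hmain
  rw [e.sum_comp (fun q => ‖h (z q)‖ ^ 2), Fintype.sum_sum_type, inv_mul_le_iff₀ hr0] at hmain
  have hy : ∀ i, ‖h (y i)‖ ^ 2 ≤ 2 * (‖h (a i)‖ ^ 2 + ‖h (b i)‖ ^ 2) := fun i => by
    rw [hab i, map_add, map_smul h Complex.I (b i)]
    refine (pow_le_pow_left₀ (norm_nonneg _) (norm_add_le _ _) 2).trans ?_
    rw [norm_smul, Complex.norm_I, one_mul]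
    nlinarith [sq_nonneg (‖h (a i)‖ - ‖h (b i)‖)]
  have hδ' : 3 * ‖h‖ ^ 2 * ε ≤ δ := by
    rw [show 3 * ‖h‖ ^ 2 * ε = δ * (3 * ‖h‖ ^ 2 / (3 * ‖h‖ ^ 2 + 1)) by simp only [ε]; ring]
    exact mul_le_of_le_one_right hδ.le ((div_le_one (by positivity)).2 (by linarith))
  refine (sum_le_sum fun i _ => hy i).trans ?_
  rw [← mul_sum, sum_add_distrib]
  simp only [z, Sum.elim_inl, Sum.elim_inr] at hmain
  rw [hr] at hmain
  linarith

end Vale.Agent.P082.LittleG
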