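import Vale.Agent.P082.Defs

/-!
P082: the differential at a tuple with a prescribed first entry, and its linearity.
-/

namespace Vale.Agent.P082

universe u

variable {H : Type u} [NormedAddCommGroup H] [InnerProductSpace ℂ H] [CompleteSpace H]
variable {M : VonNeumannAlgebra H}

/-- The cochain multiplied on the left by `a`. -/
noncomputable def lmulC {n : ℕ} (a : Alg M) (g : Cochain M n) : Cochain M n :=
  (ContinuousLinearMap.mul ℂ (Alg M) a).compContinuousMultilinearMap g

@[simp] theorem lmulC_apply {n : ℕ} (a : Alg M) (g : Cochain M n) (x : Fin n → Alg M) :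
    lmulC a g x = a * g x := rfl

theorem contract_cons_zero {n : ℕ} (p : Alg M) (x : Fin (n + 1) → Alg M) :
    Fin.contractNth (0 : Fin (n + 1)).castSucc (· * ·) (Fin.cons p x : Fin (n + 2) → Alg M) =
      Fin.cons (p * x 0) (fun i => x i.succ) := by
  funext i
  refine Fin.cases ?_ (fun i => ?_) i
  · simp [Fin.contractNth]
  · simp [Fin.contractNth, Fin.cons_succ]

theorem contract_cons_succ {n : ℕ} (p : Alg M) (x : Fin (n + 1) → Alg M) (j : Fin n) :
    Fin.contractNth (j.succ : Fin (n + 1)).castSucc (· * ·) (Fin.cons p x : Fin (n + 2) → Alg M) =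
      Fin.cons p (Fin.contractNth j.castSucc (· * ·) x) := by
  funext i
  refine Fin.cases ?_ (fun i => ?_) i
  · simp [Fin.contractNth]
  · rcases lt_trichotomy (i : ℕ) (j : ℕ) with h | h | h
    · simp [Fin.contractNth, h, Fin.cons_succ]
    · simp [Fin.contractNth, h, Fin.cons_succ]
    · simp [Fin.contractNth, not_lt_of_gt h, ne_of_gt h, Fin.cons_succ]

theorem init_cons {n : ℕ} (p : Alg M) (x : Fin (n + 1) → Alg M) :
    (fun i : Fin (n + 1) => (Fin.cons p x : Fin (n + 2) → Alg M) i.castSucc) =
      Fin.cons p (fun i => x i.castSucc) := by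
  funext i
  refine Fin.cases ?_ (fun i => ?_) i <;> simp

/-- The differential at `(p, x₀, …)`, in terms of the cochain with first entry `p`. -/
theorem hoch_cons {n : ℕ} (f : Cochain M (n + 1)) (p : Alg M) (x : Fin (n + 1) → Alg M) :
    hoch f (Fin.cons p x) = p * f x - f (Fin.cons (p * x 0) fun i => x i.succ) +
      x 0 * f.curryLeft p (fun i => x i.succ) - hoch (f.curryLeft p) x := by
  have hlast : (Fin.cons p x : Fin (n + 2) → Alg M) (Fin.last (n + 1)) = x (Fin.last n) := by
    rw [← Fin.succ_last, Fin.cons_succ]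
  simp only [hoch, Fin.sum_univ_succ, contract_cons_zero, contract_cons_succ, init_cons, hlast,
    Fin.cons_zero, Fin.cons_succ, Fin.val_zero, Fin.val_succ, ContinuousMultilinearMap.curryLeft_apply]
  simp only [pow_succ, pow_zero, mul_neg, mul_one, neg_smul, neg_neg, one_smul,
    Finset.sum_neg_distrib]
  abel

theorem hoch_add {n : ℕ} (f g : Cochain M n) (x : Fin (n + 1) → Alg M) :
    hoch (f + g) x = hoch f x + hoch g x := by
  simp only [hoch, add_apply, mul_add, add_mul, smul_add,
    Finset.sum_add_distrib]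
  abel

theorem hoch_smul {n : ℕ} (c : ℂ) (f : Cochain M n) (x : Fin (n + 1) → Alg M) :
    hoch (c • f) x = c • hoch f x := by
  simp only [hoch, smul_apply, mul_smul_comm, smul_mul_assoc, smul_add,
    Finset.smul_sum, smul_comm c]

theorem hoch_neg {n : ℕ} (f : Cochain M n) (x : Fin (n + 1) → Alg M) :
    hoch (-f) x = -hoch f x := by
  rw [← neg_one_smul ℂ f, hoch_smul, neg_one_smul]

theorem hoch_sub {n : ℕ} (f g : Cochain M n) (x : Fin (n + 1) → Alg M) :
    hoch (f - g) x = hoch f x - hoch g x := by
  rw [sub_eq_add_neg, hoch_add, hoch_neg, sub_eq_add_neg]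

/-- The differential of a left multiple. -/
theorem hoch_lmulC {n : ℕ} (a : Alg M) (g : Cochain M n) (x : Fin (n + 1) → Alg M) :
    hoch (lmulC a g) x = a * hoch g x + (x 0 * a - a * x 0) * g (fun i => x i.succ) := by
  simp only [hoch, lmulC_apply, mul_add, Finset.mul_sum, mul_smul_comm, sub_mul, mul_assoc]
  abel

end Vale.Agent.P082
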